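import Vale.Agent.P371.Link.Spectral
import Vale.Agent.P371.LeftForms

/-!
P371, threshold method T5, first half: from continuous compactly supported potentials with a positive
definite form matrix to all measurable potentials and all orthonormal families.
-/

namespace Vale.Agent.P371.Thr

open MeasureTheory Filter Topology ComplexConjugate Convolution Set _root_.Matrix
open scoped ComplexOrder
open Vale.Agent.P371.Left (gram dfam fmat comb)
open Vale.Agent.P371.Link (powTr powTr_eq trace_pow_re)

variable {m n : ℕ}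

/-- The inequality for continuous compactly supported potentials and positive definite form
matrices. -/
def CoreBound (m : ℕ) (γ C : ℝ) : Prop :=
  ∀ (n : ℕ) (W : ℝ → Matrix (Fin m) (Fin m) ℂ), Continuous W → HasCompactSupport W →
    (∀ x, (W x).PosSemidef) → ∀ u : Fin n → ℝ → Fin m → ℂ,
    (∀ j a, ContDiff ℝ 1 fun x => u j x a) → (∀ j a, HasCompactSupport fun x => u j x a) →
    gram (fun _ => 1) u = 1 →
    (gram W u - gram (fun _ => 1) (dfam u)).PosDef →
    powTr γ (gram W u - gram (fun _ => 1) (dfam u)) ≤ C * ∫ x, powTr (γ + 1 / 2) (W x)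

/-- The same inequality without continuity of the potential. -/
def Bound (m : ℕ) (γ C : ℝ) (W : ℝ → Matrix (Fin m) (Fin m) ℂ) : Prop :=
  ∀ (n : ℕ) (u : Fin n → ℝ → Fin m → ℂ),
    (∀ j a, ContDiff ℝ 1 fun x => u j x a) → (∀ j a, HasCompactSupport fun x => u j x a) →
    gram (fun _ => 1) u = 1 →
    (gram W u - gram (fun _ => 1) (dfam u)).PosDef →
    powTr γ (gram W u - gram (fun _ => 1) (dfam u)) ≤ C * ∫ x, powTr (γ + 1 / 2) (W x)

/-! ### Power traces -/

section powTr

variable {k : Type} [Fintype k] [DecidableEq k]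

theorem eigen_sum_of_charpoly {A : Matrix k k ℂ} (hA : A.IsHermitian) {d : k → ℝ}
    (h : A.charpoly = ∏ i, (Polynomial.X - Polynomial.C ((d i : ℂ)))) (f : ℝ → ℝ) :
    ∑ i, f (hA.eigenvalues i) = ∑ i, f (d i) := by
  have e := hA.roots_charpoly_eq_eigenvalues
  rw [h, Polynomial.roots_prod _ _
    (Finset.prod_ne_zero_iff.2 fun i _ => Polynomial.X_sub_C_ne_zero _)] at e
  simp only [Polynomial.roots_X_sub_C, Multiset.bind_singleton] at e
  have e2 := congrArg (fun M : Multiset ℂ => (M.map fun z => f z.re).sum) e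
  simp only [Multiset.map_map, Function.comp_def] at e2
  simpa using e2.symm

theorem powTr_diagonal (r : ℝ) (d : k → ℝ) :
    powTr r (diagonal fun i => (d i : ℂ)) = ∑ i, d i ^ r := by
  have h : (diagonal fun i => (d i : ℂ)).IsHermitian :=
    isHermitian_diagonal_of_self_adjoint _ (by
      ext i; simp [Complex.conj_ofReal])
  rw [powTr_eq h, eigen_sum_of_charpoly h (Matrix.charpoly_diagonal _) (fun t => t ^ r)]

theorem powTr_nonneg {A : Matrix k k ℂ} (hA : A.PosSemidef) (r : ℝ) : 0 ≤ powTr r A := by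
  rw [powTr_eq hA.isHermitian]
  exact Finset.sum_nonneg fun i _ => Real.rpow_nonneg (hA.eigenvalues_nonneg i) _

open scoped Matrix.Norms.L2Operator in
/-- Power traces are sequentially continuous on Hermitian matrices. -/
theorem tendsto_powTr {A : ℕ → Matrix k k ℂ} {B : Matrix k k ℂ} (hA : ∀ i, (A i).IsHermitian)
    (hB : B.IsHermitian) (h : ∀ a b, Tendsto (fun i => A i a b) atTop (𝓝 (B a b))) {r : ℝ}
    (hr : 0 ≤ r) : Tendsto (fun i => powTr r (A i)) atTop (𝓝 (powTr r B)) := by
  have hT : Tendsto A atTop (𝓝 B) := tendsto_pi_nhds.2 fun a => tendsto_pi_nhds.2 fun b => h a b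
  obtain ⟨R, hR⟩ := (Metric.isBounded_range_of_tendsto A hT).exists_norm_le
  obtain ⟨R', hR', hR''⟩ : ∃ R', R ≤ R' ∧ ‖B‖ ≤ R' := ⟨max R ‖B‖, le_max_left _ _, le_max_right _ _⟩
  have key : ∀ {X : Matrix k k ℂ} (hX : X.IsHermitian), ‖X‖ ≤ R' → ∀ {p : Polynomial ℝ} {δ : ℝ},
      (∀ t ∈ Icc (-R') R', |p.eval t - t ^ r| ≤ δ) →
      |∑ j ∈ Finset.range (p.natDegree + 1), p.coeff j * (X ^ j).trace.re - powTr r X| ≤
        Fintype.card k * δ := by
    intro X hX hn p δ hp
    have e : ∑ j ∈ Finset.range (p.natDegree + 1), p.coeff j * (X ^ j).trace.re =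
        ∑ i, p.eval (hX.eigenvalues i) := by
      simp only [trace_pow_re hX, Polynomial.eval_eq_sum_range, Finset.mul_sum]
      exact Finset.sum_comm
    rw [e, powTr_eq hX, ← Finset.sum_sub_distrib]
    refine (Finset.abs_sum_le_sum_abs _ _).trans ?_
    refine (Finset.sum_le_sum fun i _ => hp _ ?_).trans (by simp)
    exact abs_le.1 ((Link.abs_eigenvalue_le hX i).trans hn)
  rw [Metric.tendsto_atTop]
  intro ε hε
  obtain ⟨δ, hδ, hδε⟩ : ∃ δ, 0 < δ ∧ (Fintype.card k : ℝ) * δ < ε / 3 := by
    refine ⟨ε / (3 * (Fintype.card k + 1)), by positivity, ?_⟩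
    rw [mul_div_assoc', div_lt_div_iff₀ (by positivity) (by norm_num)]
    nlinarith
  obtain ⟨p, hp⟩ := exists_polynomial_near_of_continuousOn (-R') R' (fun t : ℝ => t ^ r)
    (Real.continuous_rpow_const hr).continuousOn δ hδ
  have hc : Tendsto (fun i => ∑ j ∈ Finset.range (p.natDegree + 1), p.coeff j * (A i ^ j).trace.re)
      atTop (𝓝 (∑ j ∈ Finset.range (p.natDegree + 1), p.coeff j * (B ^ j).trace.re)) :=
    tendsto_finsetSum _ fun j _ => tendsto_const_nhds.mul
      (((Complex.continuous_re.comp continuous_id.matrix_trace).tendsto _).comp (hT.pow j))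
  obtain ⟨N, hN⟩ := Metric.tendsto_atTop.1 hc (ε / 3) (by linarith)
  refine ⟨N, fun i hi => ?_⟩
  have h1 := key (hA i) ((hR _ (mem_range_self i)).trans hR') fun t ht => (hp t ht).le
  have h2 := key hB hR'' fun t ht => (hp t ht).le
  have h3 := hN i hi
  rw [Real.dist_eq] at h3 ⊢
  rw [abs_lt] at h3 ⊢
  rw [abs_le] at h1 h2
  constructor <;> linarith

end powTr

/-! ### Form matrices -/

variable {W : ℝ → Matrix (Fin m) (Fin m) ℂ} {u : Fin n → ℝ → Fin m → ℂ}

theorem gram_herm (hW : ∀ x, (W x).IsHermitian) (v : Fin n → ℝ → Fin m → ℂ) :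
    (gram W v).IsHermitian := by
  ext i j
  simp only [conjTranspose_apply, Left.gram, Matrix.of_apply, RCLike.star_def, ← integral_conj]
  congr 1
  funext x
  have h : star (star (v j x) ⬝ᵥ W x *ᵥ v i x) = star (v i x) ⬝ᵥ W x *ᵥ v j x := by
    rw [Matrix.star_dotProduct, Matrix.star_mulVec, (hW x).eq, star_star, ← Matrix.dotProduct_mulVec]
  exact h

/-- Dominated convergence for form matrices. -/
theorem tendsto_gram {Wk : ℕ → ℝ → Matrix (Fin m) (Fin m) ℂ}
    (hm : ∀ k a b, Measurable fun x => Wk k x a b)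
    (hae : ∀ᵐ x, ∀ a b, Tendsto (fun k => Wk k x a b) atTop (𝓝 (W x a b)))
    {g : ℝ → ℝ} (hg : LocallyIntegrable g) (hdom : ∀ k x a b, ‖Wk k x a b‖ ≤ g x)
    (hu : ∀ j a, Continuous fun x => u j x a) (hus : ∀ j a, HasCompactSupport fun x => u j x a)
    (i j : Fin n) : Tendsto (fun k => gram (Wk k) u i j) atTop (𝓝 (gram W u i j)) := by
  simp only [Left.gram, Matrix.of_apply, dotProduct, mulVec, Pi.star_apply, Finset.mul_sum]
  refine tendsto_integral_of_dominated_convergence
    (fun x => ∑ a, ∑ b, g x * ‖star (u i x a) * u j x b‖) (fun k => ?_) ?_ (fun k => ?_) ?_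
  · exact (Finset.measurable_sum _ fun a _ => Finset.measurable_sum _ fun b _ =>
      (Complex.continuous_conj.comp (hu i a)).measurable.mul
        ((hm k a b).mul (hu j b).measurable)).aestronglyMeasurable
  · refine integrable_finsetSum _ fun a _ => integrable_finsetSum _ fun b _ => ?_
    have hc : Continuous fun x => ‖star (u i x a) * u j x b‖ :=
      ((Complex.continuous_conj.comp (hu i a)).mul (hu j b)).norm
    exact hg.integrable_smul_right_of_hasCompactSupport hc (hus j b).mul_left.norm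
  · refine .of_forall fun x => (norm_sum_le _ _).trans (Finset.sum_le_sum fun a _ => ?_)
    refine (norm_sum_le _ _).trans (Finset.sum_le_sum fun b _ => ?_)
    rw [show star (u i x a) * (Wk k x a b * u j x b) = Wk k x a b * (star (u i x a) * u j x b) by
      ring, norm_mul]
    exact mul_le_mul_of_nonneg_right (hdom k x a b) (norm_nonneg _)
  · filter_upwards [hae] with x hx
    exact tendsto_finsetSum _ fun a _ => tendsto_finsetSum _ fun b _ =>
      tendsto_const_nhds.mul ((hx a b).mul tendsto_const_nhds)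

/-- Hermitian matrices near a positive definite one are positive definite. -/
theorem eventually_posDef {k : Type} [Fintype k] [DecidableEq k] {A : ℕ → Matrix k k ℂ}
    {B : Matrix k k ℂ} (hA : ∀ i, (A i).IsHermitian) (hB : B.PosDef)
    (h : ∀ a b, Tendsto (fun i => A i a b) atTop (𝓝 (B a b))) :
    ∀ᶠ i in atTop, (A i).PosDef := by
  rcases isEmpty_or_nonempty k with hk | hk
  · exact .of_forall fun i => Matrix.PosDef.of_dotProduct_mulVec_pos (hA i) fun v hv =>
      absurd (Subsingleton.elim v 0) hv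
  obtain ⟨c, hc, hcb⟩ : ∃ c : ℝ, 0 < c ∧ ∀ v : k → ℂ, c * ∑ a, ‖v a‖ ^ 2 ≤
      (star v ⬝ᵥ B *ᵥ v).re := by
    obtain ⟨i₀, hi₀⟩ := Finite.exists_min hB.isHermitian.eigenvalues
    refine ⟨_, hB.eigenvalues_pos i₀, fun v => ?_⟩
    have hp : (B - (hB.isHermitian.eigenvalues i₀ : ℂ) • 1).PosSemidef := by
      set U : Matrix k k ℂ := (hB.isHermitian.eigenvectorUnitary : Matrix k k ℂ)
      have hU : U * Uᴴ = 1 := mul_eq_one_comm.mp (Unitary.coe_star_mul_self _)
      have hs : B = U * diagonal (fun i => (hB.isHermitian.eigenvalues i : ℂ)) * Uᴴ := by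
        have := hB.isHermitian.spectral_theorem
        simpa [Unitary.conjStarAlgAut_apply, Matrix.star_eq_conjTranspose, U, Function.comp_def]
          using this
      have key : ∀ (d : k → ℝ) (c : ℝ), U * diagonal (fun i => (d i : ℂ)) * Uᴴ - (c : ℂ) • 1 =
          U * diagonal (fun i => ((d i - c : ℝ) : ℂ)) * Uᴴ := fun d c => by
        rw [show (diagonal fun i => ((d i - c : ℝ) : ℂ)) =
            diagonal (fun i => (d i : ℂ)) - (c : ℂ) • 1 by
          rw [← Matrix.diagonal_one, ← Matrix.diagonal_smul, diagonal_sub]; simp]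
        rw [Matrix.mul_sub, Matrix.sub_mul, Matrix.mul_smul, Matrix.smul_mul, Matrix.mul_one, hU]
      have e : B - (hB.isHermitian.eigenvalues i₀ : ℂ) • 1 = U * diagonal (fun i =>
          ((hB.isHermitian.eigenvalues i - hB.isHermitian.eigenvalues i₀ : ℝ) : ℂ)) * Uᴴ :=
        (congrArg (fun M => M - (hB.isHermitian.eigenvalues i₀ : ℂ) • (1 : Matrix k k ℂ)) hs).trans
          (key _ _)
      rw [e]
      exact (Matrix.PosSemidef.diagonal fun i =>
        Complex.zero_le_real.2 (sub_nonneg.2 (hi₀ i))).mul_mul_conjTranspose_same U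
    have h2 := (Complex.nonneg_iff.1 (hp.dotProduct_mulVec_nonneg v)).1
    have e2 : (star v ⬝ᵥ v).re = ∑ a, ‖v a‖ ^ 2 := by
      simp [dotProduct, Complex.re_sum, ← Complex.normSq_eq_norm_sq, Complex.normSq_apply]
    rw [Matrix.sub_mulVec, dotProduct_sub, Matrix.smul_mulVec, Matrix.one_mulVec, dotProduct_smul,
      Complex.sub_re, smul_eq_mul, Complex.re_ofReal_mul, e2] at h2
    linarith
  have hs : Tendsto (fun i => ∑ a, ∑ b, ‖A i a b - B a b‖) atTop (𝓝 0) := by
    have := tendsto_finsetSum Finset.univ fun a (_ : a ∈ Finset.univ) =>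
      tendsto_finsetSum Finset.univ fun b (_ : b ∈ Finset.univ) =>
        ((h a b).sub_const (B a b)).norm
    simpa using this
  filter_upwards [hs.eventually (gt_mem_nhds hc)] with i hi
  refine Matrix.PosDef.of_dotProduct_mulVec_pos (hA i) fun v hv => Complex.pos_iff.2 ⟨?_, ?_⟩
  · have hv2 : 0 < ∑ a, ‖v a‖ ^ 2 := by
      obtain ⟨a, ha⟩ := Function.ne_iff.1 hv
      exact Finset.sum_pos' (fun a _ => sq_nonneg _) ⟨a, Finset.mem_univ _, by
        have : 0 < ‖v a‖ := norm_pos_iff.2 ha
        positivity⟩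
    have hd : |(star v ⬝ᵥ (A i - B) *ᵥ v).re| ≤
        (∑ a, ∑ b, ‖A i a b - B a b‖) * ∑ a, ‖v a‖ ^ 2 := by
      refine (Complex.abs_re_le_norm _).trans ?_
      simp only [dotProduct, mulVec, Pi.star_apply, Matrix.sub_apply, Finset.mul_sum]
      refine (norm_sum_le _ _).trans ?_
      simp only [Finset.sum_mul]
      rw [Finset.sum_comm (f := fun c a => ∑ b, ‖A i a b - B a b‖ * ‖v c‖ ^ 2)]
      refine Finset.sum_le_sum fun a _ => (norm_sum_le _ _).trans ?_
      rw [Finset.sum_comm]
      refine Finset.sum_le_sum fun b _ => ?_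
      rw [norm_mul, norm_mul, norm_star, ← Finset.mul_sum]
      have h1 : ‖v a‖ * ‖v b‖ ≤ ∑ c, ‖v c‖ ^ 2 := by
        have ha := Finset.single_le_sum (f := fun c => ‖v c‖ ^ 2) (fun c _ => sq_nonneg _)
          (Finset.mem_univ a)
        have hb := Finset.single_le_sum (f := fun c => ‖v c‖ ^ 2) (fun c _ => sq_nonneg _)
          (Finset.mem_univ b)
        nlinarith [sq_nonneg (‖v a‖ - ‖v b‖)]
      calc ‖v a‖ * (‖A i a b - B a b‖ * ‖v b‖) = ‖A i a b - B a b‖ * (‖v a‖ * ‖v b‖) := by ring
        _ ≤ _ := mul_le_mul_of_nonneg_left h1 (norm_nonneg _)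
    rw [Matrix.sub_mulVec, dotProduct_sub, Complex.sub_re, abs_le] at hd
    nlinarith [hcb v, mul_lt_mul_of_pos_right hi hv2]
  · exact ((hA i).im_star_dotProduct_mulVec_self v).symm

/-- The limit step. -/
theorem bound_of_limit {γ C : ℝ} (hγ : 0 < γ) {Wk : ℕ → ℝ → Matrix (Fin m) (Fin m) ℂ}
    (hk : ∀ k, Bound m γ C (Wk k)) (hWk : ∀ k x, (Wk k x).PosSemidef) (hW : ∀ x, (W x).PosSemidef)
    (hm : ∀ k a b, Measurable fun x => Wk k x a b)
    (hae : ∀ᵐ x, ∀ a b, Tendsto (fun k => Wk k x a b) atTop (𝓝 (W x a b)))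
    {g : ℝ → ℝ} (hg : LocallyIntegrable g) (hdom : ∀ k x a b, ‖Wk k x a b‖ ≤ g x)
    {G : ℝ → ℝ} (hG : Integrable G) (hdomG : ∀ k x, powTr (γ + 1 / 2) (Wk k x) ≤ G x) :
    Bound m γ C W := by
  intro n u hu hus hL hE
  set K := gram (fun _ => 1) (dfam u)
  have hK : K.IsHermitian := gram_herm (fun _ => isHermitian_one) _
  have hc : ∀ a b, Tendsto (fun k => (gram (Wk k) u - K) a b) atTop (𝓝 ((gram W u - K) a b)) :=
    fun a b => (tendsto_gram hm hae hg hdom (fun j a => (hu j a).continuous) hus a b).sub_const _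
  have hAh : ∀ k, (gram (Wk k) u - K).IsHermitian := fun k =>
    (gram_herm (fun x => (hWk k x).isHermitian) u).sub hK
  have hl := tendsto_powTr hAh hE.isHermitian hc hγ.le
  have hr : Tendsto (fun k => ∫ x, powTr (γ + 1 / 2) (Wk k x)) atTop
      (𝓝 (∫ x, powTr (γ + 1 / 2) (W x))) := by
    refine tendsto_integral_of_dominated_convergence G (fun k => ?_) hG
      (fun k => .of_forall fun x => ?_) ?_
    · simp only [fun x => powTr_eq (hWk k x).isHermitian (γ + 1 / 2)]
      exact (Sharp.measurable_sum_eigen (fun x => (hWk k x).isHermitian) (hm k)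
        (Real.continuous_rpow_const (by linarith))).aestronglyMeasurable
    · rw [Real.norm_eq_abs, abs_of_nonneg (powTr_nonneg (hWk k x) _)]
      exact hdomG k x
    · filter_upwards [hae] with x hx
      exact tendsto_powTr (fun k => (hWk k x).isHermitian) (hW x).isHermitian hx (by linarith)
  refine le_of_tendsto_of_tendsto hl (hr.const_mul C) ?_
  filter_upwards [eventually_posDef hAh hE hc] with k hpd
  exact hk k n u hu hus hL hpd

/-- Bounded potentials with bounded support. -/
theorem bound_bounded {γ C : ℝ} (hγ : 1 / 2 < γ) (hcore : CoreBound m γ C)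
    (hW : ∀ x, (W x).PosSemidef) (hWm : ∀ a b, Measurable fun x => W x a b) {R : ℝ}
    (hWb : ∀ x a b, ‖W x a b‖ ≤ R) (hWs : ∀ x, R < |x| → W x = 0) : Bound m γ C W := by
  rcases isEmpty_or_nonempty (Fin m) with hm0 | hm0
  · exact bound_of_limit (Wk := fun _ _ => 0) (g := fun _ => 0) (G := fun _ => 0) (by linarith)
      (fun _ n u hu hus hL hE => hcore n _ continuous_const HasCompactSupport.zero
        (fun _ => Matrix.PosSemidef.zero) u hu hus hL hE)
      (fun _ _ => Matrix.PosSemidef.zero) hW (fun _ a => (IsEmpty.false a).elim)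
      (.of_forall fun _ a => (IsEmpty.false a).elim) (locallyIntegrable_const 0)
      (fun _ _ a => (IsEmpty.false a).elim) (integrable_zero _ _ _)
      (fun _ x => le_of_eq (by
        rw [powTr_eq (Matrix.PosSemidef.zero).isHermitian]
        exact Finset.sum_eq_zero fun a _ => (IsEmpty.false a).elim))
  obtain ⟨a₀⟩ := hm0
  have hR0 : 0 ≤ R := (norm_nonneg _).trans (hWb 0 a₀ a₀)
  obtain ⟨φ, hφ⟩ : ∃ φ : ℕ → ContDiffBump (0 : ℝ), ∀ k, (φ k).rOut = 1 / ((k : ℝ) + 1) ∧
      (φ k).rIn = 1 / ((k : ℝ) + 1) / 2 :=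
    ⟨fun k => ⟨1 / ((k : ℝ) + 1) / 2, 1 / ((k : ℝ) + 1), by positivity,
      half_lt_self (by positivity)⟩, fun k => ⟨rfl, rfl⟩⟩
  obtain ⟨Wk, hWk⟩ : ∃ Wk : ℕ → ℝ → Matrix (Fin m) (Fin m) ℂ, Wk = fun k x => Matrix.of fun a b =>
      ((φ k).normed volume ⋆[ContinuousLinearMap.lsmul ℝ ℝ, volume] fun y => W y a b : ℝ → ℂ) x :=
    ⟨_, rfl⟩
  have hi : ∀ a b, Integrable fun y => W y a b := fun a b => by
    refine ((integrable_indicator_iff measurableSet_Icc).2 (integrableOn_const (C := R)
      (measure_Icc_lt_top (a := -R) (b := R)).ne)).mono' (hWm a b).aestronglyMeasurable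
      (.of_forall fun y => ?_)
    by_cases hy : y ∈ Icc (-R) R
    · rw [indicator_of_mem hy]; exact hWb y a b
    · rw [indicator_of_notMem hy, hWs y (lt_of_not_ge fun h => hy (abs_le.1 h))]; simp
  have hcont : ∀ k a b, Continuous fun x => Wk k x a b := fun k a b => by
    rw [hWk]
    exact (φ k).hasCompactSupport_normed.continuous_convolution_left _ (φ k).continuous_normed
      (hi a b).locallyIntegrable
  have hint : ∀ k x a b, Integrable fun t => ((φ k).normed volume t : ℝ) • W (x - t) a b :=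
    fun k x a b => ((φ k).hasCompactSupport_normed.convolutionExists_left
      (ContinuousLinearMap.lsmul ℝ ℝ) (φ k).continuous_normed (hi a b).locallyIntegrable x)
  have happ : ∀ k x a b, Wk k x a b = ∫ t, ((φ k).normed volume t : ℝ) • W (x - t) a b :=
    fun k x a b => by rw [hWk]; rfl
  have hsupp : ∀ k x, R + 1 < |x| → Wk k x = 0 := fun k x hx => by
    ext a b
    rw [happ, Matrix.zero_apply]
    refine integral_eq_zero_of_ae (.of_forall fun t => ?_)
    rcases le_or_gt (φ k).rOut |t| with ht | ht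
    · have : (φ k).normed volume t = 0 := by
        have h := (φ k).support_normed_eq (μ := volume)
        by_contra hne
        have : t ∈ Metric.ball (0 : ℝ) (φ k).rOut := h ▸ hne
        simp only [Metric.mem_ball, dist_zero_right, Real.norm_eq_abs] at this
        linarith
      simp [this]
    · have h1 : (φ k).rOut ≤ 1 := by
        rw [(hφ k).1, div_le_one (by positivity)]; linarith [Nat.cast_nonneg (α := ℝ) k]
      have h2 := hWs (x - t) (by linarith [abs_sub_abs_le_abs_sub x t])
      simp [h2]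
  have hpsd : ∀ k x, (Wk k x).PosSemidef := fun k x => by
    refine Matrix.PosSemidef.of_dotProduct_mulVec_nonneg ?_ fun v => ?_
    · ext a b
      rw [conjTranspose_apply, happ, happ, RCLike.star_def, ← integral_conj]
      congr 1
      funext t
      rw [Complex.real_smul, Complex.real_smul, map_mul, Complex.conj_ofReal, ← RCLike.star_def,
        ← conjTranspose_apply, (hW _).isHermitian.eq]
    · have e : star v ⬝ᵥ Wk k x *ᵥ v =
          ∫ t, ((φ k).normed volume t : ℝ) • (star v ⬝ᵥ W (x - t) *ᵥ v) := by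
        simp only [dotProduct, mulVec, Finset.smul_sum, Finset.mul_sum, happ, Complex.real_smul,
          Pi.star_apply]
        have hI : ∀ a b, Integrable fun t =>
            ((φ k).normed volume t : ℂ) * (star (v a) * (W (x - t) a b * v b)) := fun a b =>
          (((hint k x a b).mul_const (v b)).const_mul (star (v a))).congr
            (.of_forall fun t => by simp only [Complex.real_smul]; ring)
        rw [integral_finsetSum _ fun a _ => integrable_finsetSum _ fun b _ => hI a b]
        refine Finset.sum_congr rfl fun a _ => ?_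
        rw [integral_finsetSum _ fun b _ => hI a b]
        refine Finset.sum_congr rfl fun b _ => ?_
        rw [← integral_mul_const, ← integral_const_mul]
        congr 1
        funext t
        ring
      rw [e]
      exact integral_nonneg fun t => smul_nonneg ((φ k).nonneg_normed t)
        ((hW _).dotProduct_mulVec_nonneg v)
  have hbd : ∀ k x a b, ‖Wk k x a b‖ ≤ R := fun k x a b => by
    rw [happ]
    refine (norm_integral_le_of_norm_le ((φ k).integrable_normed.mul_const R)
      (.of_forall fun t => ?_)).trans (le_of_eq ?_)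
    · rw [norm_smul, Real.norm_eq_abs, abs_of_nonneg ((φ k).nonneg_normed t)]
      exact mul_le_mul_of_nonneg_left (hWb _ _ _) ((φ k).nonneg_normed t)
    · rw [integral_mul_const, (φ k).integral_normed, one_mul]
  have hev : ∀ k x i, (hpsd k x).isHermitian.eigenvalues i ≤ m * R := fun k x i => by
    have h1 : (hpsd k x).isHermitian.eigenvalues i ≤ ∑ j, (hpsd k x).isHermitian.eigenvalues j :=
      Finset.single_le_sum (fun j _ => (hpsd k x).eigenvalues_nonneg j) (Finset.mem_univ i)
    have h2 : ∑ j, (hpsd k x).isHermitian.eigenvalues j = (Wk k x).trace.re := by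
      rw [(hpsd k x).isHermitian.trace_eq_sum_eigenvalues, Complex.re_sum]
      simp
    rw [h2, trace, Complex.re_sum] at h1
    refine h1.trans ((Finset.sum_le_sum fun a _ => (Complex.re_le_norm _).trans (hbd k x a a)).trans
      (le_of_eq (by simp)))
  refine bound_of_limit (Wk := Wk) (g := fun _ => R)
    (G := (Icc (-(R + 1)) (R + 1)).indicator fun _ => (m : ℝ) * ((m : ℝ) * R) ^ (γ + 1 / 2))
    (by linarith) (fun k n u hu hus hL hE => ?_) hpsd hW (fun k a b => (hcont k a b).measurable)
    ?_ (locallyIntegrable_const R) hbd ?_ (fun k x => ?_)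
  · refine hcore n (Wk k) (continuous_pi fun a => continuous_pi fun b => hcont k a b) ?_ (hpsd k)
      u hu hus hL hE
    exact HasCompactSupport.intro (isCompact_Icc (a := -(R + 1)) (b := R + 1)) fun x hx =>
      hsupp k x (lt_of_not_ge fun h => hx (abs_le.1 h))
  · refine ae_all_iff.2 fun a => ae_all_iff.2 fun b => ?_
    rw [hWk]
    exact ContDiffBump.ae_convolution_tendsto_right_of_locallyIntegrable (φ := φ) (K := 2)
      (by simp only [(hφ _).1]; exact tendsto_one_div_add_atTop_nhds_zero_nat)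
      (.of_forall fun k => le_of_eq (by rw [(hφ k).1, (hφ k).2]; ring)) (hi a b).locallyIntegrable
  · exact (integrable_indicator_iff measurableSet_Icc).2
      (integrableOn_const measure_Icc_lt_top.ne)
  · rw [powTr_eq (hpsd k x).isHermitian]
    by_cases hx : x ∈ Icc (-(R + 1)) (R + 1)
    · rw [indicator_of_mem hx]
      refine (Finset.sum_le_sum fun i _ => Real.rpow_le_rpow ((hpsd k x).eigenvalues_nonneg i)
        (hev k x i) (by linarith)).trans (le_of_eq ?_)
      simp
    · rw [indicator_of_notMem hx, ← powTr_eq (hpsd k x).isHermitian,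
        hsupp k x (lt_of_not_ge fun h => hx (abs_le.1 h)), Link.powTr_zero (by linarith)]

theorem powTr_fmat {A : Matrix (Fin m) (Fin m) ℂ} (hA : A.IsHermitian) (f : ℝ → ℝ) (r : ℝ) :
    powTr r (fmat hA f) = ∑ i, f (hA.eigenvalues i) ^ r := by
  have h : (fmat hA f).IsHermitian := Left.fmat_herm hA f
  have hc : (fmat hA f).charpoly =
      ∏ i, (Polynomial.X - Polynomial.C ((f (hA.eigenvalues i) : ℂ))) := by
    rw [show fmat hA f = cfc f A by
      rw [hA.cfc_eq f]
      simp [Left.fmat, Matrix.IsHermitian.cfc, Unitary.conjStarAlgAut_apply,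
        Matrix.star_eq_conjTranspose, Function.comp_def]]
    exact hA.charpoly_cfc_eq f
  rw [powTr_eq h, eigen_sum_of_charpoly h hc (fun t => t ^ r)]

/-- All integrable potentials. -/
theorem bound_all {γ C : ℝ} (hγ : 1 / 2 < γ) (hcore : CoreBound m γ C)
    (hW : ∀ x, (W x).PosSemidef) (hWm : ∀ a b, Measurable fun x => W x a b)
    (hWi : Integrable fun x => ∑ i, (hW x).isHermitian.eigenvalues i ^ (γ + 1 / 2)) :
    Bound m γ C W := by
  have hWh : ∀ x, (W x).IsHermitian := fun x => (hW x).isHermitian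
  have hmin : ∀ k : ℕ, Continuous fun w : ℝ => min w (k : ℝ) := fun k =>
    continuous_id.min continuous_const
  obtain ⟨Wk, hWk⟩ : ∃ Wk : ℕ → ℝ → Matrix (Fin m) (Fin m) ℂ, Wk = fun (k : ℕ) (x : ℝ) =>
      if |x| ≤ k then fmat (hWh x) (fun w => min w (k : ℝ)) else 0 := ⟨_, rfl⟩
  have hf : ∀ x (k : ℕ), (fmat (hWh x) (fun w => min w (k : ℝ))).PosSemidef := fun x k => by
    rw [Left.fmat]
    exact (Matrix.PosSemidef.diagonal fun i => Complex.zero_le_real.2
      (le_min ((hW x).eigenvalues_nonneg i) k.cast_nonneg)).mul_mul_conjTranspose_same _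
  have hpsd : ∀ k x, (Wk k x).PosSemidef := fun k x => by
    rw [hWk]; dsimp only; split_ifs
    · exact hf x k
    · exact Matrix.PosSemidef.zero
  have hm : ∀ k a b, Measurable fun x => Wk k x a b := fun k a b => by
    simp only [hWk, apply_ite (fun M : Matrix (Fin m) (Fin m) ℂ => M a b), Matrix.zero_apply]
    exact Measurable.ite (measurableSet_le continuous_abs.measurable measurable_const)
      (Left.measurable_fmat hWh hWm (hmin k) a b) measurable_const
  have hb : ∀ k x a b, ‖Wk k x a b‖ ≤ ∑ i, |min ((hWh x).eigenvalues i) (k : ℝ)| := fun k x a b => by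
    rw [hWk]; dsimp only; split_ifs
    · exact Left.norm_fmat_le _ _ a b
    · rw [Matrix.zero_apply, norm_zero]; exact Finset.sum_nonneg fun i _ => abs_nonneg _
  refine bound_of_limit (Wk := Wk) (by linarith) (fun k => ?_) hpsd hW hm ?_
    (g := fun x => (m : ℝ) + ∑ i, (hWh x).eigenvalues i ^ (γ + 1 / 2))
    ((locallyIntegrable_const (m : ℝ)).add hWi.locallyIntegrable) (fun k x a b => ?_)
    (G := fun x => ∑ i, (hWh x).eigenvalues i ^ (γ + 1 / 2)) hWi (fun k x => ?_)
  · refine bound_bounded hγ hcore (hpsd k) (hm k) (R := max (k : ℝ) ((m : ℝ) * k)) (fun x a b => ?_)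
      (fun x hx => ?_)
    · refine (hb k x a b).trans (le_trans (Finset.sum_le_sum fun i _ =>
        (show |min ((hWh x).eigenvalues i) (k : ℝ)| ≤ k by
          rw [abs_of_nonneg (le_min ((hW x).eigenvalues_nonneg i) k.cast_nonneg)]
          exact min_le_right _ _)) ?_)
      simp
    · rw [hWk]; dsimp only
      rw [if_neg (not_le.2 (lt_of_le_of_lt (le_max_left _ _) hx))]
  · refine .of_forall fun x a b => tendsto_nhds_of_eventually_eq ?_
    obtain ⟨k₀, hk₀⟩ := exists_nat_ge (max |x| (∑ i, (hWh x).eigenvalues i))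
    filter_upwards [eventually_ge_atTop k₀] with k hk
    have hkk : (k₀ : ℝ) ≤ k := Nat.cast_le.2 hk
    rw [hWk]; dsimp only
    rw [if_pos ((le_max_left _ _).trans (hk₀.trans hkk))]
    conv_rhs => rw [← Left.fmat_id (hWh x)]
    simp only [Left.fmat_apply]
    refine Finset.sum_congr rfl fun i _ => ?_
    rw [min_eq_left ((Finset.single_le_sum (fun j _ => (hW x).eigenvalues_nonneg j)
      (Finset.mem_univ i)).trans ((le_max_right _ _).trans (hk₀.trans hkk)))]
  · refine (hb k x a b).trans ((Finset.sum_le_sum (g := fun i => 1 + (hWh x).eigenvalues i ^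
      (γ + 1 / 2)) fun i _ => ?_).trans (le_of_eq (by simp [Finset.sum_add_distrib])))
    have h0 := (hW x).eigenvalues_nonneg i
    rw [abs_of_nonneg (le_min h0 k.cast_nonneg)]
    refine (min_le_left _ _).trans ?_
    rcases le_total ((hWh x).eigenvalues i) 1 with h | h
    · linarith [Real.rpow_nonneg h0 (γ + 1 / 2)]
    · have := Real.self_le_rpow_of_one_le h (show (1 : ℝ) ≤ γ + 1 / 2 by linarith)
      linarith
  · rw [hWk]; dsimp only; split_ifs
    · rw [powTr_fmat]
      exact Finset.sum_le_sum fun i _ => Real.rpow_le_rpow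
        (le_min ((hW x).eigenvalues_nonneg i) k.cast_nonneg) (min_le_left _ _) (by linarith)
    · rw [Link.powTr_zero (by linarith)]
      exact Finset.sum_nonneg fun i _ => Real.rpow_nonneg ((hW x).eigenvalues_nonneg i) _

/-- Families on which the form is diagonal. -/
theorem lifting_diag {γ C : ℝ} (hγ : 1 / 2 < γ) (hcore : CoreBound m γ C)
    (hW : ∀ x, (W x).PosSemidef) (hWm : ∀ a b, Measurable fun x => W x a b)
    (hWi : Integrable fun x => ∑ i, (hW x).isHermitian.eigenvalues i ^ (γ + 1 / 2))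
    (hu : ∀ j a, ContDiff ℝ 1 fun x => u j x a) (hus : ∀ j a, HasCompactSupport fun x => u j x a)
    (hL : gram (fun _ => 1) u = 1) (lam : Fin n → ℝ)
    (hE : gram W u - gram (fun _ => 1) (dfam u) = diagonal fun i => (lam i : ℂ)) :
    ∑ j, max 0 (lam j) ^ γ ≤ C * ∫ x, ∑ i, (hW x).isHermitian.eigenvalues i ^ (γ + 1 / 2) := by
  obtain ⟨S, hS⟩ : ∃ S : Finset (Fin n), S = Finset.univ.filter fun i => 0 < lam i := ⟨_, rfl⟩
  obtain ⟨e, he⟩ : ∃ e : Fin S.card ↪ Fin n, e = (S.equivFin.symm.toEmbedding).trans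
      (Function.Embedding.subtype _) := ⟨_, rfl⟩
  have hmem : ∀ i, 0 < lam (e i) := fun i => by
    have h : ∀ q ∈ S, 0 < lam q := fun q hq => by
      rw [hS] at hq
      exact (Finset.mem_filter.1 hq).2
    rw [he]
    exact h _ (S.equivFin.symm i).2
  have hg : ∀ (M : ℝ → Matrix (Fin m) (Fin m) ℂ) (z : Fin n → ℝ → Fin m → ℂ),
      gram M (fun i => z (e i)) = (gram M z).submatrix e e := fun M z => rfl
  have hd : gram W (fun i => u (e i)) - gram (fun _ => 1) (dfam fun i => u (e i)) =
      diagonal fun i => (lam (e i) : ℂ) := by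
    rw [show dfam (fun i => u (e i)) = fun i => dfam u (e i) from rfl, hg, hg]
    have h5 := congrArg (fun M => Matrix.submatrix M e e) hE
    simpa [Matrix.submatrix_sub, Matrix.submatrix_diagonal _ _ e.injective, Function.comp_def]
      using h5
  have h := bound_all hγ hcore hW hWm hWi S.card (fun i => u (e i)) (fun j a => hu _ a)
    (fun j a => hus _ a) (by rw [hg, hL, Matrix.submatrix_one e e.injective])
    (hd ▸ Matrix.PosDef.diagonal fun i => Complex.zero_lt_real.2 (hmem i))
  rw [hd, powTr_diagonal, integral_congr_ae (.of_forall fun x => powTr_eq (hW x).isHermitian (γ + 1 / 2))] at h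
  refine le_trans (le_of_eq ?_) h
  calc ∑ j, max 0 (lam j) ^ γ = ∑ j ∈ S, lam j ^ γ := by
        rw [hS, Finset.sum_filter]
        refine Finset.sum_congr rfl fun j _ => ?_
        split_ifs with h0
        · rw [max_eq_right h0.le]
        · rw [max_eq_left (not_lt.1 h0), Real.zero_rpow (by linarith)]
    _ = _ := by
        rw [← Finset.sum_coe_sort S fun j => lam j ^ γ, ← S.equivFin.symm.sum_comp, he]
        rfl

/-- Every orthonormal family: the eigenvalues of its form matrix. -/
theorem lifting_eig {γ C : ℝ} (hγ : 1 / 2 < γ) (hcore : CoreBound m γ C)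
    (hW : ∀ x, (W x).PosSemidef) (hWm : ∀ a b, Measurable fun x => W x a b)
    (hWi : Integrable fun x => ∑ i, (hW x).isHermitian.eigenvalues i ^ (γ + 1 / 2))
    (hu : ∀ j a, ContDiff ℝ 1 fun x => u j x a) (hus : ∀ j a, HasCompactSupport fun x => u j x a)
    (hL : gram (fun _ => 1) u = 1)
    (hE : (gram W u - gram (fun _ => 1) (dfam u)).IsHermitian) :
    ∑ j, max 0 (hE.eigenvalues j) ^ γ ≤
      C * ∫ x, ∑ i, (hW x).isHermitian.eigenvalues i ^ (γ + 1 / 2) := by
  set U : Matrix (Fin n) (Fin n) ℂ := (hE.eigenvectorUnitary : Matrix (Fin n) (Fin n) ℂ)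
  have hU : Uᴴ * U = 1 := Unitary.coe_star_mul_self _
  obtain ⟨h1, h2, h3⟩ := Left.comb_smooth hu hus U
  have hv : ∀ j a, Continuous fun x => u j x a := fun j a => (hu j a).continuous
  have hdv : ∀ j a, Continuous fun x => dfam u j x a := fun j a =>
    (hu j a).continuous_deriv le_rfl
  have hdvs : ∀ j a, HasCompactSupport fun x => dfam u j x a := fun j a => (hus j a).deriv
  have hone : ∀ x a b, ‖(1 : Matrix (Fin m) (Fin m) ℂ) a b‖ ≤ 1 + (fun _ : ℝ => (0 : ℝ)) x :=
    fun x a b => by
      simp only [Matrix.one_apply, add_zero]; split_ifs <;> simp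
  have hi1 : ∀ {v : Fin n → ℝ → Fin m → ℂ}, (∀ j a, Continuous fun x => v j x a) →
      (∀ j a, HasCompactSupport fun x => v j x a) →
      ∀ i j, Integrable fun x => star (v i x) ⬝ᵥ (1 : Matrix (Fin m) (Fin m) ℂ) *ᵥ v j x :=
    fun hc hs i j => Left.integrable_pair (M := fun _ => (1 : Matrix (Fin m) (Fin m) ℂ))
      (fun _ _ => measurable_const) (g := fun _ => 0) (integrable_zero _ _ _)
      (fun _ => le_rfl) (K := 1) hone (hc i) (hc j) (hs j)
  have hiW : ∀ i j, Integrable fun x => star (u i x) ⬝ᵥ W x *ᵥ u j x := fun i j => by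
    refine Left.integrable_pair hWm hWi (fun x => Finset.sum_nonneg fun i _ =>
      Real.rpow_nonneg ((hW x).eigenvalues_nonneg i) _) (K := (m : ℝ)) (fun x a b => ?_) (hv i) (hv j)
      (hus j)
    conv_lhs => rw [← Left.fmat_id (hW x).isHermitian]
    refine (Left.norm_fmat_le _ _ a b).trans ((Finset.sum_le_sum (g := fun i => 1 +
      (hW x).isHermitian.eigenvalues i ^ (γ + 1 / 2)) fun i _ => ?_).trans
      (le_of_eq (by simp [Finset.sum_add_distrib])))
    have h0 := (hW x).eigenvalues_nonneg i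
    rw [abs_of_nonneg h0]
    rcases le_total ((hW x).isHermitian.eigenvalues i) 1 with h | h
    · linarith [Real.rpow_nonneg h0 (γ + 1 / 2)]
    · have := Real.self_le_rpow_of_one_le h (show (1 : ℝ) ≤ γ + 1 / 2 by linarith)
      linarith
  refine lifting_diag hγ hcore hW hWm hWi h1 h2 ?_ hE.eigenvalues ?_
  · rw [Left.gram_comb (hi1 hv hus), hL, Matrix.mul_one, hU]
  · rw [h3, Left.gram_comb hiW, Left.gram_comb (hi1 hdv hdvs), ← Matrix.sub_mul, ← Matrix.mul_sub]
    have hs := hE.spectral_theorem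
    rw [Unitary.conjStarAlgAut_apply] at hs
    conv_lhs => rw [hs]
    rw [show star (hE.eigenvectorUnitary : Matrix (Fin n) (Fin n) ℂ) = Uᴴ from rfl]
    simp only [Matrix.mul_assoc]
    rw [hU, Matrix.mul_one, ← Matrix.mul_assoc, hU, Matrix.one_mul]
    rfl

end Vale.Agent.P371.Thr
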