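import Mathlib

/-!
P371, threshold method: linear differential equations with a continuous parameter.
-/

namespace Vale.Agent.P371.Thr

noncomputable section

open Set Filter Topology MeasureTheory
open scoped Nat NNReal

section Abstract

variable {X F : Type} [TopologicalSpace X] [NormedAddCommGroup F] [NormedSpace ℝ F]

/-- The terms of the iterated integral series. -/
def odeTerm (A : X → ℝ → F →L[ℝ] F) (a : ℝ) (y0 : X → F) : ℕ → X → ℝ → F
  | 0 => fun p _ => y0 p
  | k + 1 => fun p t => ∫ s in a..t, A p s (odeTerm A a y0 k p s)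

variable {A : X → ℝ → F →L[ℝ] F} {a : ℝ} {y0 : X → F}

lemma continuous_odeTerm (hA : Continuous fun q : X × ℝ => A q.1 q.2) (hy : Continuous y0) :
    ∀ k, Continuous fun q : X × ℝ => odeTerm A a y0 k q.1 q.2
  | 0 => hy.comp continuous_fst
  | k + 1 => by
    show Continuous fun q : X × ℝ => ∫ s in a..q.2, A q.1 s (odeTerm A a y0 k q.1 s)
    exact intervalIntegral.continuous_parametric_primitive_of_continuous
      (f := fun p s => A p s (odeTerm A a y0 k p s)) (hA.clm_apply (continuous_odeTerm hA hy k))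

lemma hasDerivAt_odeTerm [CompleteSpace F] (hA : Continuous fun q : X × ℝ => A q.1 q.2)
    (hy : Continuous y0) (k : ℕ) (p : X) (t : ℝ) :
    HasDerivAt (odeTerm A a y0 (k + 1) p) (A p t (odeTerm A a y0 k p t)) t :=
  (((hA.clm_apply (continuous_odeTerm hA hy k)).comp
    (Continuous.prodMk_right p)).integral_hasStrictDerivAt a t).hasDerivAt

omit [TopologicalSpace X] in
lemma norm_odeTerm_le {C R : ℝ} {p : X}
    (hC : ∀ t, |t - a| ≤ R → ‖A p t‖ ≤ C) :
    ∀ k, ∀ t, |t - a| ≤ R → ‖odeTerm A a y0 k p t‖ ≤ ‖y0 p‖ * (C * |t - a|) ^ k / k ! := by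
  intro k
  induction k with
  | zero => intro t _; simp [odeTerm]
  | succ k ih =>
    intro t ht
    have hC0 : 0 ≤ C := (norm_nonneg _).trans (hC t ht)
    have hb : ∀ s ∈ uIoc a t, ‖A p s (odeTerm A a y0 k p s)‖ ≤
        C * (‖y0 p‖ * C ^ k / k !) * |s - a| ^ k := by
      intro s hs
      have hs' : |s - a| ≤ R :=
        (abs_sub_left_of_mem_uIcc (uIoc_subset_uIcc hs)).trans ht
      refine ((A p s).le_opNorm _).trans ((mul_le_mul (hC s hs') (ih s hs') (norm_nonneg _)
        hC0).trans_eq ?_)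
      rw [mul_pow]; ring
    refine (intervalIntegral.norm_integral_le_integral_norm_uIoc).trans ?_
    refine (integral_mono_of_nonneg (Eventually.of_forall fun s => norm_nonneg _) ?_
      ((ae_restrict_mem measurableSet_uIoc).mono hb)).trans_eq ?_
    · exact ((continuous_const.mul (((continuous_id.sub continuous_const).abs).pow
        k)).continuousOn.integrableOn_compact isCompact_uIcc).mono_set uIoc_subset_uIcc
    · rw [integral_const_mul, integral_pow_abs_sub_uIoc, Nat.factorial_succ, Nat.cast_mul,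
        Nat.cast_add_one, mul_pow]
      field_simp
      ring

/-- The series solution. -/
def odeSol (A : X → ℝ → F →L[ℝ] F) (a : ℝ) (y0 : X → F) (p : X) (t : ℝ) : F :=
  ∑' k, odeTerm A a y0 k p t

lemma exists_local_bound (hA : Continuous fun q : X × ℝ => A q.1 q.2) (hy : Continuous y0)
    (p : X) (R : ℝ) : ∃ U ∈ 𝓝 p, IsOpen U ∧ ∃ C : ℝ, ∀ x ∈ U,
      ‖y0 x‖ ≤ C ∧ ∀ t, |t - a| ≤ R → ‖A x t‖ ≤ C := by
  obtain ⟨C, hC⟩ := (isCompact_Icc (a := a - R) (b := a + R)).exists_bound_of_continuousOn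
    (hA.comp (Continuous.prodMk_right p)).continuousOn
  set C' := max C ‖y0 p‖ + 1
  have hlt : ∀ᶠ x in 𝓝 p, ∀ t ∈ Icc (a - R) (a + R), ‖A x t‖ < C' := by
    refine isCompact_Icc.eventually_forall_of_forall_eventually fun t ht => ?_
    exact (hA.norm.tendsto (p, t)).eventually_lt_const
      ((hC t ht).trans_lt ((le_max_left _ _).trans_lt (lt_add_one _)))
  have hy' : ∀ᶠ x in 𝓝 p, ‖y0 x‖ < C' :=
    (hy.norm.tendsto p).eventually_lt_const ((le_max_right _ _).trans_lt (lt_add_one _))
  obtain ⟨U, hU, hUo, hpU⟩ := eventually_nhds_iff.1 (hlt.and hy')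
  refine ⟨U, hUo.mem_nhds hpU, hUo, C', fun x hx => ⟨(hU x hx).2.le, fun t ht => ?_⟩⟩
  exact ((hU x hx).1 t ⟨by linarith [(abs_le.1 ht).1], by linarith [(abs_le.1 ht).2]⟩).le

lemma summable_bound (C R : ℝ) : Summable fun k : ℕ => C * (C * R) ^ k / k ! := by
  simpa [mul_div_assoc] using (Real.summable_pow_div_factorial (C * R)).mul_left C

omit [TopologicalSpace X] in
lemma norm_odeTerm_le_bound {C R : ℝ} {p : X} (hy : ‖y0 p‖ ≤ C)
    (hC : ∀ t, |t - a| ≤ R → ‖A p t‖ ≤ C) (k : ℕ) (t : ℝ) (ht : |t - a| ≤ R) :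
    ‖odeTerm A a y0 k p t‖ ≤ C * (C * R) ^ k / k ! := by
  have hC0 : 0 ≤ C := (norm_nonneg _).trans hy
  refine (norm_odeTerm_le hC k t ht).trans ?_
  gcongr

variable [CompleteSpace F]

lemma continuous_odeSol (hA : Continuous fun q : X × ℝ => A q.1 q.2) (hy : Continuous y0) :
    Continuous fun q : X × ℝ => odeSol A a y0 q.1 q.2 := by
  rw [continuous_iff_continuousAt]
  rintro ⟨p, t⟩
  obtain ⟨U, hU, -, C, hC⟩ := exists_local_bound (a := a) hA hy p (|t - a| + 1)
  have hmem : U ×ˢ {s | |s - a| ≤ |t - a| + 1} ∈ 𝓝 (p, t) := by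
    refine prod_mem_nhds hU ?_
    filter_upwards [(((continuous_id.sub continuous_const).abs).tendsto t).eventually_lt_const
      (lt_add_one |t - a|)] with s hs using hs.le
  refine ContinuousOn.continuousAt ?_ hmem
  exact continuousOn_tsum (fun k => (continuous_odeTerm hA hy k).continuousOn)
    (summable_bound C (|t - a| + 1))
    fun k q hq => norm_odeTerm_le_bound (hC q.1 hq.1).1 (hC q.1 hq.1).2 k q.2 hq.2

omit [TopologicalSpace X] [CompleteSpace F] in
lemma odeSol_self (p : X) : odeSol A a y0 p a = y0 p := by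
  rw [odeSol, tsum_eq_single 0 fun k hk => ?_]
  · rfl
  · obtain ⟨j, rfl⟩ := Nat.exists_eq_succ_of_ne_zero hk
    simp [odeTerm]

lemma hasDerivAt_odeSol (hA : Continuous fun q : X × ℝ => A q.1 q.2) (hy : Continuous y0)
    (p : X) (t : ℝ) : HasDerivAt (odeSol A a y0 p) (A p t (odeSol A a y0 p t)) t := by
  set R := |t - a| + 1 with hR
  obtain ⟨U, hU, -, C, hC⟩ := exists_local_bound (a := a) hA hy p R
  have hp := hC p (mem_of_mem_nhds hU)
  have hC0 : 0 ≤ C := (norm_nonneg _).trans hp.1
  have hball : ∀ s ∈ Metric.ball a R, |s - a| ≤ R := fun s hs => by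
    rw [Metric.mem_ball, Real.dist_eq] at hs; exact hs.le
  have hsum : ∀ s, |s - a| ≤ R → Summable fun k => odeTerm A a y0 k p s := fun s hs =>
    (summable_bound C R).of_norm_bounded fun k => norm_odeTerm_le_bound hp.1 hp.2 k s hs
  have htR : |t - a| ≤ R := (lt_add_one _).le
  have hd : HasDerivAt (fun s => ∑' k, odeTerm A a y0 (k + 1) p s)
      (∑' k, A p t (odeTerm A a y0 k p t)) t := by
    refine hasDerivAt_tsum_of_isPreconnected ((summable_bound C R).mul_left C)
      Metric.isOpen_ball (convex_ball a R).isPreconnected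
      (fun k s _ => hasDerivAt_odeTerm hA hy k p s) (fun k s hs => ?_)
      (Metric.mem_ball_self (by positivity)) ?_ ?_
    · exact ((A p s).le_opNorm _).trans (mul_le_mul (hp.2 s (hball s hs))
        (norm_odeTerm_le_bound hp.1 hp.2 k s (hball s hs)) (norm_nonneg _) hC0)
    · simp [odeTerm]
    · rw [Metric.mem_ball, Real.dist_eq]; exact lt_add_one _
  rw [← (A p t).map_tsum (hsum t htR)] at hd
  refine ((hasDerivAt_const t (y0 p)).add hd).congr_of_eventuallyEq ?_ |>.congr_deriv (zero_add _)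
  filter_upwards [Metric.isOpen_ball.mem_nhds (show t ∈ Metric.ball a R by
    rw [Metric.mem_ball, Real.dist_eq]; exact lt_add_one _)] with s hs
  exact (hsum s (hball s hs)).tsum_eq_zero_add

/-- A linear equation with a continuous parameter has a jointly continuous solution. -/
theorem exists_linear_solution (hA : Continuous fun q : X × ℝ => A q.1 q.2) (a : ℝ)
    (hy : Continuous y0) :
    ∃ Y : X → ℝ → F, (Continuous fun q : X × ℝ => Y q.1 q.2) ∧ (∀ p, Y p a = y0 p) ∧
      ∀ p t, HasDerivAt (Y p) (A p t (Y p t)) t :=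
  ⟨odeSol A a y0, continuous_odeSol hA hy, odeSol_self, hasDerivAt_odeSol hA hy⟩

omit [TopologicalSpace X] [CompleteSpace F] in
/-- A solution of a linear equation on an interval vanishing at one point vanishes. -/
theorem linear_solution_zero {K : ℝ → F →L[ℝ] F} {f : ℝ → F} {b c : ℝ}
    (hK : ContinuousOn K (Icc b c))
    (hf : ∀ t ∈ Icc b c, HasDerivWithinAt f (K t (f t)) (Icc b c) t) {t0 : ℝ}
    (ht0 : t0 ∈ Icc b c) (h0 : f t0 = 0) : ∀ t ∈ Icc b c, f t = 0 := by
  obtain ⟨C, hC⟩ := isCompact_Icc.exists_bound_of_continuousOn hK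
  have hlip : ∀ t ∈ Icc b c, LipschitzWith C.toNNReal fun x => K t x := fun t ht =>
    (K t).lipschitz.weaken (by
      rw [← NNReal.coe_le_coe, coe_nnnorm]; exact (hC t ht).trans (Real.le_coe_toNNReal C))
  have hc : ContinuousOn f (Icc b c) := fun t ht => (hf t ht).continuousWithinAt
  intro t ht
  rcases le_total t0 t with h | h
  · have hs : Icc t0 c ⊆ Icc b c := Icc_subset_Icc_left ht0.1
    refine ODE_solution_unique_of_mem_Icc_right (v := fun t x => K t x) (s := fun _ => univ)
      (g := fun _ => (0 : F)) (fun u hu => (hlip u (hs (Ico_subset_Icc_self hu))).lipschitzOnWith)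
      (hc.mono hs) (fun u hu => ((hf u (hs (Ico_subset_Icc_self hu))).mono_of_mem_nhdsWithin
        (Icc_mem_nhdsGE_of_mem ⟨ht0.1.trans hu.1, hu.2⟩))) (fun _ _ => mem_univ _)
      continuousOn_const (fun u _ => by simpa using hasDerivWithinAt_const u (Ici u) (0 : F))
      (fun _ _ => mem_univ _) h0 ⟨h, ht.2⟩
  · have hs : Icc b t0 ⊆ Icc b c := Icc_subset_Icc_right ht0.2
    refine ODE_solution_unique_of_mem_Icc_left (v := fun t x => K t x) (s := fun _ => univ)
      (g := fun _ => (0 : F)) (fun u hu => (hlip u (hs (Ioc_subset_Icc_self hu))).lipschitzOnWith)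
      (hc.mono hs) (fun u hu => ((hf u (hs (Ioc_subset_Icc_self hu))).mono_of_mem_nhdsWithin
        (Icc_mem_nhdsLE_of_mem ⟨hu.1, hu.2.trans ht0.2⟩))) (fun _ _ => mem_univ _)
      continuousOn_const (fun u _ => by simpa using hasDerivWithinAt_const u (Iic u) (0 : F))
      (fun _ _ => mem_univ _) h0 ⟨ht.1, h⟩

end Abstract

section Second

open scoped Matrix.Norms.L2Operator

variable {X : Type} [TopologicalSpace X] {n : Type} [Fintype n] [DecidableEq n]

/-- The first order field of `Φ'' = K Φ`. -/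
def secondField (K : Matrix n n ℂ) :
    (Matrix n n ℂ × Matrix n n ℂ) →L[ℝ] Matrix n n ℂ × Matrix n n ℂ :=
  (ContinuousLinearMap.inl ℝ _ _).comp (ContinuousLinearMap.snd ℝ _ _) +
    (ContinuousLinearMap.inr ℝ _ _).comp
      ((ContinuousLinearMap.mul ℝ (Matrix n n ℂ) K).comp (ContinuousLinearMap.fst ℝ _ _))

lemma secondField_apply (K : Matrix n n ℂ) (z : Matrix n n ℂ × Matrix n n ℂ) :
    secondField K z = (z.2, K * z.1) := by
  simp [secondField]

lemma continuous_secondField : Continuous (secondField (n := n)) :=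
  continuous_const.add (continuous_const.clm_comp
    ((ContinuousLinearMap.mul ℝ (Matrix n n ℂ)).continuous.clm_comp continuous_const))

/-- The shooting matrix of `Φ'' = K Φ`, continuous in the parameter and the time. -/
theorem exists_shoot {K : X → ℝ → Matrix n n ℂ} (hK : Continuous fun q : X × ℝ => K q.1 q.2)
    (a : ℝ) {C0 C1 : X → Matrix n n ℂ} (h0 : Continuous C0) (h1 : Continuous C1) :
    ∃ Φ Φ' : X → ℝ → Matrix n n ℂ, (Continuous fun q : X × ℝ => Φ q.1 q.2) ∧
      (Continuous fun q : X × ℝ => Φ' q.1 q.2) ∧ (∀ p, Φ p a = C0 p) ∧ (∀ p, Φ' p a = C1 p) ∧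
      (∀ p t, HasDerivAt (Φ p) (Φ' p t) t) ∧
      ∀ p t, HasDerivAt (Φ' p) (K p t * Φ p t) t := by
  obtain ⟨Y, hYc, hYa, hY⟩ := exists_linear_solution (A := fun p t => secondField (K p t))
    (continuous_secondField.comp hK) a (h0.prodMk h1)
  refine ⟨fun p t => (Y p t).1, fun p t => (Y p t).2, hYc.fst, hYc.snd,
    fun p => congrArg Prod.fst (hYa p), fun p => congrArg Prod.snd (hYa p),
    fun p t => ?_, fun p t => ?_⟩
  · have h := (ContinuousLinearMap.fst ℝ (Matrix n n ℂ) (Matrix n n ℂ)).hasFDerivAt.comp_hasDerivAt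
      t (hY p t)
    simpa [secondField_apply, Function.comp_def] using h
  · have h := (ContinuousLinearMap.snd ℝ (Matrix n n ℂ) (Matrix n n ℂ)).hasFDerivAt.comp_hasDerivAt
      t (hY p t)
    simpa [secondField_apply, Function.comp_def] using h

omit [TopologicalSpace X] in
/-- A column solution with vanishing value and derivative at one point vanishes. -/
theorem second_zero {K : ℝ → Matrix n n ℂ} {b c : ℝ} (hK : ContinuousOn K (Icc b c))
    {f f' : ℝ → n → ℂ} (hf : ∀ t ∈ Icc b c, HasDerivWithinAt f (f' t) (Icc b c) t)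
    (hf' : ∀ t ∈ Icc b c, HasDerivWithinAt f' (Matrix.mulVec (K t) (f t)) (Icc b c) t) {t0 : ℝ}
    (ht0 : t0 ∈ Icc b c) (h0 : f t0 = 0) (h0' : f' t0 = 0) :
    ∀ t ∈ Icc b c, f t = 0 ∧ f' t = 0 := by
  let L : Matrix n n ℂ →ₗ[ℝ] ((n → ℂ) × (n → ℂ)) →L[ℝ] (n → ℂ) × (n → ℂ) :=
    { toFun := fun M => (ContinuousLinearMap.inr ℝ _ _).comp
        (((Matrix.toLin' M).toContinuousLinearMap.restrictScalars ℝ).comp
          (ContinuousLinearMap.fst ℝ _ _))
      map_add' := fun M N => by ext z <;> simp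
      map_smul' := fun r M => by ext z <;> simp [Matrix.smul_mulVec, Complex.real_smul] }
  set A := fun t => (ContinuousLinearMap.inl ℝ (n → ℂ) (n → ℂ)).comp (ContinuousLinearMap.snd ℝ _ _)
    + L (K t) with hA
  have hAc : ContinuousOn A (Icc b c) :=
    continuousOn_const.add (L.continuous_of_finiteDimensional.comp_continuousOn hK)
  have hz := linear_solution_zero (f := fun t => (f t, f' t)) hAc (fun t ht => ?_) ht0
    (Prod.ext h0 h0')
  · exact fun t ht => Prod.ext_iff.1 (hz t ht)
  · refine ((hf t ht).prodMk (hf' t ht)).congr_deriv ?_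
    simp [hA, L]

end Second

end

end Vale.Agent.P371.Thr
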