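import Vale.Agent.P371.Thr.Defs
import Vale.Agent.P371.Thr.Ode

/-!
P371, threshold method T3b: an eigendirection of the constant coefficient missed by the potential.
-/

namespace Vale.Agent.P371.Thr

open _root_.Matrix Complex MeasureTheory Set
open scoped ComplexOrder MatrixOrder Matrix.Norms.L2Operator

variable {n : Type} [Fintype n] [DecidableEq n]

lemma msqrt_mul_self' {E : Matrix n n ℂ} (hE : E.PosSemidef) : msqrt E * msqrt E = E := by
  unfold msqrt
  rw [← cfc_mul Real.sqrt Real.sqrt E]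
  conv_rhs => rw [← cfc_id' ℝ E hE.isHermitian]
  refine cfc_congr fun t ht => Real.mul_self_sqrt ?_
  rw [hE.isHermitian.spectrum_real_eq_range_eigenvalues] at ht
  obtain ⟨i, rfl⟩ := ht
  exact hE.eigenvalues_nonneg i

lemma msqrt_posSemidef' {E : Matrix n n ℂ} : (msqrt E).PosSemidef := by
  rw [← Matrix.nonneg_iff_posSemidef]
  have h : (0 : Matrix n n ℂ) ≤ msqrt E := cfc_nonneg fun t _ => Real.sqrt_nonneg t
  simpa [Matrix.le_iff] using h
lemma msqrt_eigen {E : Matrix n n ℂ} (hE : E.PosSemidef) {M : ℝ} (hM : 0 ≤ M) {v : n → ℂ}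
    (hEv : E *ᵥ v = (M : ℂ) • v) : msqrt E *ᵥ v = (Real.sqrt M : ℂ) • v := by
  set S := msqrt E
  set c : ℂ := (Real.sqrt M : ℂ) with hc
  set w := S *ᵥ v - c • v with hw
  have hS : S.PosSemidef := msqrt_posSemidef'
  have hcc : c * c = (M : ℂ) := by rw [hc, ← Complex.ofReal_mul, Real.mul_self_sqrt hM]
  have h0 : S *ᵥ w = -(c • w) := by
    rw [hw, mulVec_sub, mulVec_mulVec, msqrt_mul_self' hE, hEv, mulVec_smul, smul_sub, smul_smul, hcc]
    abel
  have hnn := hS.dotProduct_mulVec_nonneg w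
  rw [h0, dotProduct_neg, dotProduct_smul, smul_eq_mul] at hnn
  have hw0 : w = 0 := by
    rcases hM.eq_or_lt with h | h
    · have hc0 : c = 0 := by simp [hc, ← h]
      have hSw : S *ᵥ w = 0 := by simp [h0, hc0]
      refine dotProduct_star_self_eq_zero.1 ?_
      conv_lhs => arg 2; rw [hw, hc0, zero_smul, sub_zero]
      rw [dotProduct_mulVec, ← hS.isHermitian.eq, ← star_mulVec, hSw]; simp
    · have hp : (0 : ℂ) < c := by rw [hc]; exact_mod_cast Real.sqrt_pos.2 h
      have h2 : (0 : ℂ) ≤ star w ⬝ᵥ w := dotProduct_star_self_nonneg w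
      have h3 : c * (star w ⬝ᵥ w) = 0 :=
        le_antisymm (neg_nonneg.1 hnn) (mul_nonneg hp.le h2)
      exact dotProduct_star_self_eq_zero.1 ((mul_eq_zero.1 h3).resolve_left hp.ne')
  rw [hw, sub_eq_zero] at hw0
  exact hw0

/-- An eigendirection of the constant coefficient missed by the potential is never switched. -/
theorem ric_block {L M : ℝ} (hL : 0 < L) (hM : 0 ≤ M) {E : Matrix n n ℂ} {V B : ℝ → Matrix n n ℂ}
    (hE : E.PosSemidef) (hB : Ric E V L B) {v : n → ℂ} (hEv : E *ᵥ v = (M : ℂ) • v)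
    (hVv : ∀ x ∈ Icc (-L) L, V x *ᵥ v = 0) :
    (msqrt E - B L) *ᵥ v = ((2 * Real.sqrt M : ℝ) : ℂ) • v := by
  set c : ℂ := (Real.sqrt M : ℂ) with hc
  have hS := msqrt_eigen hE hM hEv
  let Λ : Matrix n n ℂ →ₗ[ℝ] (n → ℂ) :=
    { toFun := fun A => A *ᵥ v
      map_add' := fun A B => add_mulVec A B v
      map_smul' := fun r A => smul_mulVec r A v }
  let K : Matrix n n ℂ →ₗ[ℝ] (n → ℂ) →L[ℝ] (n → ℂ) :=
    { toFun := fun A => (Matrix.toLin' A).toContinuousLinearMap.restrictScalars ℝ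
      map_add' := fun A B => by ext z; simp
      map_smul' := fun r A => by ext z; simp [smul_mulVec, Complex.real_smul] }
  have hcont : ContinuousOn B (Icc (-L) L) := fun x hx => (hB.deriv x hx).continuousWithinAt
  have hK : ContinuousOn (fun x => K (B x - c • 1)) (Icc (-L) L) :=
    K.continuous_of_finiteDimensional.comp_continuousOn (hcont.sub continuousOn_const)
  have hz := linear_solution_zero (f := fun x => B x *ᵥ v + c • v) hK (fun t ht => ?_)
    (left_mem_Icc.2 (by linarith : -L ≤ L)) (by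
      show B (-L) *ᵥ v + c • v = 0
      rw [hB.left, neg_mulVec, hS, hc]; simp)
    L (right_mem_Icc.2 (by linarith))
  · have hBL : B L *ᵥ v = -(c • v) := eq_neg_of_add_eq_zero_left hz
    rw [sub_mulVec, hS, hBL, sub_neg_eq_add, ← hc, ← add_smul]
    congr 1
    rw [hc]; push_cast; ring
  · have hd := (Λ.toContinuousLinearMap.hasFDerivAt.comp_hasDerivWithinAt t (hB.deriv t ht))
    have hd' : HasDerivWithinAt (fun x => B x *ᵥ v + c • v)
        ((B t * B t - E + V t) *ᵥ v) (Icc (-L) L) t := (hd.add_const (c • v))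
    refine hd'.congr_deriv ?_
    show (B t * B t - E + V t) *ᵥ v = (B t - c • 1) *ᵥ (B t *ᵥ v + c • v)
    have hcc : c * c = (M : ℂ) := by rw [hc, ← Complex.ofReal_mul, Real.mul_self_sqrt hM]
    have e1 : (B t * B t - E + V t) *ᵥ v = B t *ᵥ (B t *ᵥ v) - (M : ℂ) • v := by
      rw [add_mulVec, sub_mulVec, ← mulVec_mulVec, hEv, hVv t ht, add_zero]
    rw [e1, sub_mulVec, mulVec_add, mulVec_smul, smul_mulVec, one_mulVec, smul_add, smul_smul, hcc]
    abel

end Vale.Agent.P371.Thr
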