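import Vale.Agent.P371.Thr.Family
import Vale.Agent.P371.Link.Spectral
import Vale.Agent.P371.Link.Ends
import Vale.Agent.P371.Pencil.Commute

/-!
P371, threshold method T1: a Riccati solution reaching the right state bounds the moment.
-/

namespace Vale.Agent.P371.Thr

open _root_.Matrix Complex MeasureTheory Set
open Vale.Agent.P371.Pencil (qf dg shiftE)
open scoped ComplexOrder Matrix.Norms.L2Operator

variable {n : Type} [Fintype n] [DecidableEq n] {ν L : ℝ} {E : Matrix n n ℂ} {V B : ℝ → Matrix n n ℂ}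

omit [DecidableEq n] in
lemma posSemidef_of_qf {M : Matrix n n ℂ} (hM : M.IsHermitian) (h : ∀ v, 0 ≤ qf M v) : M.PosSemidef :=
  Matrix.PosSemidef.of_dotProduct_mulVec_nonneg hM fun v =>
    Complex.nonneg_iff.2 ⟨h v, (hM.im_star_dotProduct_mulVec_self v).symm⟩

omit [Fintype n] in
lemma isHermitian_pencil {C F : Matrix n n ℂ} (hC : C.IsHermitian) (hF : F.IsHermitian) (t : ℝ) :
    (Pencil.pencil C F t).IsHermitian := by
  show _ = _
  simp only [Pencil.pencil, conjTranspose_add, conjTranspose_sub, conjTranspose_smul, conjTranspose_one,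
    hC.eq, hF.eq, Complex.star_def, map_mul, map_pow, Complex.conj_ofReal, map_ofNat]

lemma qf_pencil (C F : Matrix n n ℂ) (t : ℝ) (v : n → ℂ) :
    qf (Pencil.pencil C F t) v = t ^ 2 * Pencil.sqLen v - 2 * t * qf C v + qf F v := by
  have e1 : ((t : ℂ) ^ 2) • (1 : Matrix n n ℂ) = ((t ^ 2 : ℝ) : ℂ) • 1 := by push_cast; rfl
  have e2 : (2 * (t : ℂ)) • C = (2 * t : ℝ) • C := by
    rw [← Complex.coe_smul]; push_cast; rfl
  rw [Pencil.pencil, Pencil.qf_add, Pencil.qf_sub, e1, e2, Pencil.qf_ofReal_one, Pencil.qf_smul]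

omit [DecidableEq n] in
lemma qf_mul_self_nonneg {M : Matrix n n ℂ} (hM : M.IsHermitian) (v : n → ℂ) : 0 ≤ qf (M * M) v := by
  have h := Matrix.posSemidef_conjTranspose_mul_self M
  rw [hM.eq] at h
  exact Pencil.qf_nonneg h v

lemma qf_square {C : Matrix n n ℂ} (t : ℝ) (v : n → ℂ) :
    qf ((C - (t : ℂ) • 1) * (C - (t : ℂ) • 1)) v =
      qf (C * C) v - 2 * t * qf C v + t ^ 2 * Pencil.sqLen v := by
  have e : (C - (t : ℂ) • (1 : Matrix n n ℂ)) * (C - (t : ℂ) • 1) =
      C * C - ((2 * t : ℝ) • C) + ((t ^ 2 : ℝ) : ℂ) • 1 := by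
    rw [← Complex.coe_smul]
    simp only [Matrix.sub_mul, Matrix.mul_sub, Matrix.smul_mul, Matrix.mul_smul, one_mul, mul_one]
    push_cast
    module
  rw [e, Pencil.qf_add, Pencil.qf_sub, Pencil.qf_smul, Pencil.qf_ofReal_one]

omit [Fintype n] in
lemma isHermitian_sub_coe {C : Matrix n n ℂ} (hC : C.IsHermitian) (t : ℝ) :
    (C - (t : ℂ) • (1 : Matrix n n ℂ)).IsHermitian := by
  show _ = _
  simp [conjTranspose_sub, conjTranspose_smul, hC.eq]

lemma spec_msqrt (hE : E.PosDef) :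
    ∃ (U : Matrix n n ℂ) (s : n → ℝ), U * Uᴴ = 1 ∧ (∀ i, 0 < s i) ∧ msqrt E = U * dg s * Uᴴ ∧
      E = U * dg (fun i => s i ^ 2) * Uᴴ := by
  obtain ⟨U, hU, hU', hd, hf⟩ := exists_spec hE.1
  refine ⟨U, fun i => Real.sqrt (hE.1.eigenvalues i), hU', fun i => Real.sqrt_pos.2 (hE.eigenvalues_pos i),
    hf _, ?_⟩
  simp only [Real.sq_sqrt (hE.eigenvalues_pos _).le]
  rw [show dg hE.1.eigenvalues = Uᴴ * E * U from hd.symm, ← Matrix.mul_assoc U, ← Matrix.mul_assoc U, hU',
    one_mul, Matrix.mul_assoc, hU', mul_one]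

/-- A Riccati solution below the right state stays in the closed domain. -/
theorem ric_domC (hL : 0 < L) (hE : E.PosDef) (hV : ∀ x ∈ Icc (-L) L, (V x).PosSemidef)
    (hB : Ric E V L B) (hR : (msqrt E - B L).PosSemidef) :
    ∀ x ∈ Icc (-L) L, Pencil.DomC (B x) E := by
  intro x hx
  refine ⟨hB.herm x hx, hE.1, fun t => posSemidef_of_qf (isHermitian_pencil (hB.herm x hx) hE.1 t) fun v => ?_⟩
  set r : ℝ → ℝ := fun y => qf (B y) v
  set q : ℝ → ℝ := fun y => qf (Pencil.pencil (B y) E t) v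
  have hq : ∀ y, q y = t ^ 2 * Pencil.sqLen v - 2 * t * r y + qf E v := fun y => qf_pencil _ _ _ _
  set w : ℝ → ℝ := fun y => qf ((B y - (t : ℂ) • 1) * (B y - (t : ℂ) • 1)) v + qf (V y) v
  have hr : ∀ y ∈ Icc (-L) L, HasDerivWithinAt r (qf (B y * B y - E + V y) v) (Icc (-L) L) y := fun y hy => by
    set Q : Matrix n n ℂ →L[ℝ] ℝ := LinearMap.toContinuousLinearMap
      { toFun := fun X => qf X v, map_add' := fun X Y => Pencil.qf_add X Y v,
        map_smul' := fun c X => Pencil.qf_smul c X v }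
    exact Q.hasFDerivAt.comp_hasDerivWithinAt y (hB.deriv y hy)
  have hqd : ∀ y ∈ Icc (-L) L, HasDerivWithinAt q (2 * t * q y - 2 * t * w y) (Icc (-L) L) y := fun y hy => by
    have h := ((hr y hy).const_mul (2 * t)).const_sub (t ^ 2 * Pencil.sqLen v) |>.add_const (qf E v)
    refine (h.congr (fun z _ => hq z) (hq y)).congr_deriv ?_
    simp only [w, hq, qf_square, Pencil.qf_add, Pencil.qf_sub]
    ring
  have hw : ∀ y ∈ Icc (-L) L, 0 ≤ w y := fun y hy =>
    add_nonneg (qf_mul_self_nonneg (isHermitian_sub_coe (hB.herm y hy) t) v) (Pencil.qf_nonneg (hV y hy) v)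
  set g : ℝ → ℝ := fun y => Real.exp (-(2 * t * y)) * q y
  have hgd : ∀ y ∈ Icc (-L) L,
      HasDerivWithinAt g (-(2 * t) * (Real.exp (-(2 * t * y)) * w y)) (Icc (-L) L) y := fun y hy => by
    have h1 : HasDerivAt (fun y => Real.exp (-(2 * t * y))) (Real.exp (-(2 * t * y)) * -(2 * t)) y := by
      simpa using (((hasDerivAt_id y).const_mul (2 * t)).neg).exp
    refine (h1.hasDerivWithinAt.mul (hqd y hy)).congr_deriv ?_
    ring
  have hgc : ContinuousOn g (Icc (-L) L) := fun y hy => (hgd y hy).continuousWithinAt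
  have hint : interior (Icc (-L) L) ⊆ Icc (-L) L := interior_subset
  have key : 0 ≤ g x := by
    rcases le_total 0 t with ht | ht
    · have hmono : AntitoneOn g (Icc (-L) L) :=
        antitoneOn_of_hasDerivWithinAt_nonpos (convex_Icc _ _) hgc
          (fun y hy => (hgd y (hint hy)).mono hint) fun y hy =>
            mul_nonpos_of_nonpos_of_nonneg (by linarith) (mul_nonneg (Real.exp_pos _).le (hw y (hint hy)))
      refine le_trans ?_ (hmono hx (right_mem_Icc.2 (by linarith)) hx.2)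
      refine mul_nonneg (Real.exp_pos _).le ?_
      have h1 := Pencil.qf_nonneg hR v
      rw [Pencil.qf_sub] at h1
      have h2 : 0 ≤ qf (msqrt E * msqrt E) v - 2 * t * qf (msqrt E) v + t ^ 2 * Pencil.sqLen v := by
        rw [← qf_square]
        exact qf_mul_self_nonneg (isHermitian_sub_coe (isHermitian_cfc _ _) t) v
      rw [msqrt_mul_self hE.posSemidef] at h2
      have h3 := mul_le_mul_of_nonneg_left (show r L ≤ qf (msqrt E) v by simp only [r]; linarith)
        (show 0 ≤ 2 * t by linarith)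
      rw [hq]
      linarith
    · have hmono : MonotoneOn g (Icc (-L) L) :=
        monotoneOn_of_hasDerivWithinAt_nonneg (convex_Icc _ _) hgc
          (fun y hy => (hgd y (hint hy)).mono hint) fun y hy =>
            mul_nonneg (by linarith) (mul_nonneg (Real.exp_pos _).le (hw y (hint hy)))
      refine le_trans ?_ (hmono (left_mem_Icc.2 (by linarith)) hx hx.1)
      refine mul_nonneg (Real.exp_pos _).le ?_
      have h2 : 0 ≤ qf (B (-L) * B (-L)) v - 2 * t * qf (B (-L)) v + t ^ 2 * Pencil.sqLen v := by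
        rw [← qf_square]
        exact qf_mul_self_nonneg (isHermitian_sub_coe (hB.herm _ (left_mem_Icc.2 (by linarith))) t) v
      rw [hB.left, neg_mul_neg, msqrt_mul_self hE.posSemidef] at h2
      rw [hq]
      simp only [r, hB.left]
      linarith
  exact (mul_nonneg_iff_of_pos_left (Real.exp_pos _)).1 key

/-- The fractional weight of a commuting pencil in the open domain. -/
theorem Xi_conj_dg' (hν : 0 < ν) (hν1 : ν < 1) {U : Matrix n n ℂ} (hU : U * Uᴴ = 1) (b e : n → ℝ)
    (h : ∀ i, b i ^ 2 ≤ e i) (hd : Pencil.Dom (U * dg b * Uᴴ) (U * dg e * Uᴴ)) :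
    Pencil.Xi ν (U * dg b * Uᴴ) (U * dg e * Uᴴ) = U * dg (fun i => (e i - b i ^ 2) ^ ν) * Uᴴ := by
  set m := fun i => e i - b i ^ 2
  set k : n → ℝ → ℝ := fun i u => u ^ (ν - 1 / 2) * ((Real.sqrt u)⁻¹ - (Real.sqrt (u + m i))⁻¹)
  have hk : ∀ u ∈ Ioi (0 : ℝ), Pencil.kern ν (U * dg b * Uᴴ) (U * dg e * Uᴴ) u = U * dg (fun i => k i u) * Uᴴ := by
    intro u hu
    have hd := (Pencil.domC_dg b e h).shift hu
    rw [Pencil.kern, Pencil.wgt, Pencil.rootAt, Pencil.shiftE_conj hU, (Pencil.root_conj hd hU).2.2,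
      ← Pencil.rootAt.eq_1, ← Pencil.wgt.eq_1, Pencil.wgt_dg b e h hu,
      show ((Real.sqrt u)⁻¹ : ℂ) • (1 : Matrix n n ℂ) = U * (((Real.sqrt u)⁻¹ : ℂ) • 1) * Uᴴ by
        rw [Matrix.mul_smul, mul_one, Matrix.smul_mul, hU],
      ← Matrix.sub_mul, ← Matrix.mul_sub, ← Matrix.smul_mul, ← Matrix.mul_smul]
    congr 2
    rw [Pencil.dg, Pencil.dg, ← diagonal_one, ← diagonal_smul, diagonal_sub, ← Complex.coe_smul, ← diagonal_smul]
    congr 1
    funext i
    simp [k, m]
  have hi := Pencil.integrableOn_kern hd hν hν1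
  have hU' : Uᴴ * U = 1 := mul_eq_one_comm.1 hU
  set Λ : n → Matrix n n ℂ →L[ℝ] ℝ := fun i => LinearMap.toContinuousLinearMap
    { toFun := fun X => ((Uᴴ * X * U) i i).re
      map_add' := fun X Y => by simp [Matrix.mul_add, Matrix.add_mul]
      map_smul' := fun r X => by simp [Matrix.mul_smul] }
  have hLk : ∀ i, ∀ u ∈ Ioi (0 : ℝ), Λ i (Pencil.kern ν (U * dg b * Uᴴ) (U * dg e * Uᴴ) u) = k i u := fun i u hu => by
    show ((Uᴴ * Pencil.kern ν (U * dg b * Uᴴ) (U * dg e * Uᴴ) u * U) i i).re = _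
    rw [hk u hu, show Uᴴ * (U * dg (fun i => k i u) * Uᴴ) * U = (Uᴴ * U) * dg (fun i => k i u) * (Uᴴ * U) by
      simp only [Matrix.mul_assoc], hU', one_mul, mul_one, Pencil.dg, diagonal_apply_eq, Complex.ofReal_re]
  have hki : ∀ i, IntegrableOn (k i) (Ioi 0) := fun i =>
    IntegrableOn.congr_fun ((Λ i).integrable_comp hi) (hLk i) measurableSet_Ioi
  have es : ∀ f : n → ℝ, U * dg f * Uᴴ = ∑ i, f i • (U * Matrix.single i i (1 : ℂ) * Uᴴ) := fun f => by
    have e0 : dg f = ∑ i, f i • Matrix.single i i (1 : ℂ) := by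
      ext a c
      by_cases hac : a = c
      · subst hac; simp [Pencil.dg, Matrix.sum_apply, Matrix.single_apply]
      · simp only [Pencil.dg, Matrix.sum_apply, Matrix.smul_apply, Matrix.single_apply, diagonal_apply_ne _ hac]
        refine (Finset.sum_eq_zero fun i _ => ?_).symm
        rw [if_neg (fun h : i = a ∧ i = c => hac (h.1.symm.trans h.2)), smul_zero]
    rw [e0, Finset.mul_sum, Finset.sum_mul]
    simp only [Matrix.mul_smul, Matrix.smul_mul]
  rw [Pencil.Xi, setIntegral_congr_fun measurableSet_Ioi hk]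
  simp only [es]
  rw [integral_finsetSum _ (fun i _ => (hki i).smul_const _), Finset.smul_sum]
  refine Finset.sum_congr rfl fun i _ => ?_
  rw [integral_smul_const, smul_smul]
  congr 1
  rw [Pencil.integral_scalar_weight hν hν1 (by simp only [m]; linarith [h i]), mul_comm,
    mul_assoc, mul_inv_cancel₀ (Pencil.scal_pos hν hν1).ne', mul_one]

lemma two_endC (hν : 0 ≤ ν) : 2 * Link.endC ν = ∫ t in (-1 : ℝ)..1, (1 - t ^ 2) ^ ν := by
  have hc : Continuous fun t : ℝ => (1 - t ^ 2) ^ ν :=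
    Continuous.rpow_const (by fun_prop) fun _ => Or.inr hν
  rw [← intervalIntegral.integral_add_adjacent_intervals (hc.intervalIntegrable (μ := volume) (-1) 0)
    (hc.intervalIntegrable (μ := volume) 0 1)]
  have h := intervalIntegral.integral_comp_neg (a := (0 : ℝ)) (b := 1) fun t : ℝ => (1 - t ^ 2) ^ ν
  simp only [neg_sq, neg_zero] at h
  rw [← h, Link.endC]
  ring

/-- The end difference of the potential, shifted by `ε`, is at least the end constant. -/
lemma end_diff (hν : 0 < ν) (hν1 : ν < 1) (hE : E.PosDef) {ε : ℝ} (hε : 0 < ε) :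
    2 * Link.endC ν * Link.powTr (ν + 1 / 2) E ≤
      Pencil.Phi ν ((2 : ℂ) • msqrt E + I • shiftE E ε) -
        Pencil.Phi ν ((2 : ℂ) • (-msqrt E) + I • shiftE E ε) := by
  obtain ⟨U, s, hU, hs, hS, hT⟩ := spec_msqrt hE
  have hU' : Uᴴ * U = 1 := mul_eq_one_comm.1 hU
  set S := msqrt E
  set T := shiftE E ε
  set e : n → ℝ := fun i => s i ^ 2 + ε
  have hTe : T = U * dg e * Uᴴ := by
    simp only [T, e]
    rw [hT, Pencil.shiftE_conj hU, Pencil.shiftE_dg]
  set c : ℝ → Matrix n n ℂ := fun t => (2 : ℂ) • (t • S) + I • T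
  have hSh : S.IsHermitian := isHermitian_cfc _ _
  have hTh : T.IsHermitian := by rw [hTe]; exact Matrix.isHermitian_mul_mul_conjTranspose U (Pencil.isHermitian_dg e)
  have etS : ∀ t : ℝ, t • S = U * dg (fun i => t * s i) * Uᴴ := fun t => by
    rw [show dg (fun i => t * s i) = (t : ℂ) • dg s by
      rw [Pencil.dg, Pencil.dg, ← diagonal_smul]; congr 1; funext i; simp, Matrix.mul_smul, Matrix.smul_mul, Complex.coe_smul, hS]
  have hp : ∀ t : ℝ, Pencil.partB (c t) = t • S ∧ Pencil.partE (c t) = T := fun t =>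
    Pencil.parts_eq ((IsSelfAdjoint.all t).smul hSh) hTh
  have hle : ∀ t ∈ Icc (-1 : ℝ) 1, ∀ i, (t * s i) ^ 2 ≤ s i ^ 2 := fun t ht i => by
    rw [mul_pow]
    exact mul_le_of_le_one_left (sq_nonneg _) ((sq_le_one_iff_abs_le_one t).2 (abs_le.2 ht))
  have hdom : ∀ t ∈ Icc (-1 : ℝ) 1, Pencil.Dom (t • S) T := fun t ht => by
    have h := (Pencil.domC_conj (Pencil.domC_dg _ _ (hle t ht)) hU).shift hε
    rw [← etS, ← hT] at h
    exact h
  have hmem : ∀ t ∈ Icc (-1 : ℝ) 1, c t ∈ (Pencil.domZ : Set (Matrix n n ℂ)) := fun t ht => by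
    show Pencil.Dom _ _
    rw [(hp t).1, (hp t).2]
    exact hdom t ht
  have hd : ∀ t, HasDerivAt c ((2 : ℂ) • S) t := fun t => by
    simpa [c] using ((((hasDerivAt_id t).smul_const S).const_smul (2 : ℂ)).add_const (I • T))
  have hval : ∀ t ∈ Icc (-1 : ℝ) 1, Pencil.dPhi ν (c t) ((2 : ℂ) • S) = ∑ i, s i * (e i - (t * s i) ^ 2) ^ ν := by
    intro t ht
    obtain ⟨a1, a2⟩ := Pencil.parts_eq (B := S) (E := (0 : Matrix n n ℂ)) hSh (by simp [Matrix.IsHermitian])
    rw [smul_zero, add_zero] at a1 a2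
    rw [Pencil.dPhi_apply, a1, a2, mul_zero, Matrix.trace_zero, Complex.zero_re, add_zero, Pencil.XiZ_eq,
      (hp t).1, (hp t).2, etS, hTe,
      Xi_conj_dg' hν hν1 hU _ _ (fun i => by have := hle t ht i; simp only [e]; linarith)
        (by rw [← etS, ← hTe]; exact hdom t ht), hS]
    rw [show U * dg (fun i => (e i - (t * s i) ^ 2) ^ ν) * Uᴴ * (U * dg s * Uᴴ) =
      U * (dg (fun i => (e i - (t * s i) ^ 2) ^ ν) * (Uᴴ * U) * dg s) * Uᴴ by
        simp only [Matrix.mul_assoc], hU', mul_one, Matrix.trace_mul_cycle, hU', one_mul, Pencil.dg, Pencil.dg,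
      diagonal_mul_diagonal, trace_diagonal, re_sum]
    refine Finset.sum_congr rfl fun i _ => ?_
    rw [← Complex.ofReal_mul, Complex.ofReal_re, mul_comm]
  have hfc : ∀ i, Continuous fun t : ℝ => s i * (e i - (t * s i) ^ 2) ^ ν := fun i =>
    continuous_const.mul (Continuous.rpow_const (by fun_prop) fun _ => Or.inr hν.le)
  have hfti := intervalIntegral.integral_eq_sub_of_hasDerivAt_of_le (f := fun t => Pencil.Phi ν (c t))
    (f' := fun t => ∑ i, s i * (e i - (t * s i) ^ 2) ^ ν) (a := (-1 : ℝ)) (b := 1) (by norm_num)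
    (fun t ht => ((Pencil.hasFDerivAt_Phi hν hν1 (hmem t ht)).continuousAt.comp (hd t).continuousAt).continuousWithinAt)
    (fun t ht => by
      rw [← hval t (Ioo_subset_Icc_self ht)]
      exact (Pencil.hasFDerivAt_Phi hν hν1 (hmem t (Ioo_subset_Icc_self ht))).comp_hasDerivAt t (hd t))
    ((continuous_finsetSum _ fun i _ => hfc i).intervalIntegrable _ _)
  simp only [c, one_smul, neg_smul] at hfti
  rw [← hfti, Link.powTr_eq hE.1, ← Link.powTr_eq hE.1, hT, Link.powTr_conj_dg hU, Finset.mul_sum,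
    intervalIntegral.integral_finsetSum fun i _ => (hfc i).intervalIntegrable _ _]
  refine Finset.sum_le_sum fun i _ => ?_
  rw [two_endC hν.le, ← intervalIntegral.integral_mul_const]
  refine intervalIntegral.integral_mono_on (by norm_num)
    (((Continuous.rpow_const (by fun_prop) fun _ => Or.inr hν.le).mul continuous_const).intervalIntegrable _ _)
    ((hfc i).intervalIntegrable _ _) fun t ht => ?_
  have h1 : 0 ≤ 1 - t ^ 2 := sub_nonneg.2 ((sq_le_one_iff_abs_le_one t).2 (abs_le.2 ht))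
  have hsp : (s i ^ 2) ^ (ν + 1 / 2) = s i * (s i ^ 2) ^ ν := by
    rw [Real.rpow_add (pow_pos (hs i) 2), ← Real.sqrt_eq_rpow, Real.sqrt_sq (hs i).le, mul_comm]
  rw [hsp, show (1 - t ^ 2) ^ ν * (s i * (s i ^ 2) ^ ν) = s i * (((1 - t ^ 2) * s i ^ 2) ^ ν) by
    rw [Real.mul_rpow h1 (sq_nonneg _)]; ring]
  exact mul_le_mul_of_nonneg_left (Real.rpow_le_rpow (by positivity) (by simp only [e]; nlinarith) hν.le) (hs i).le

lemma powTr_shift_le {p : ℝ} (hp : 1 ≤ p) {A : Matrix n n ℂ} (hA : A.PosSemidef) {ε C : ℝ} (hε : 0 < ε)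
    (hε1 : ε ≤ 1) (hC : ‖A‖ ≤ C) :
    Link.powTr p (shiftE A ε) ≤ Link.powTr p A + ε * ((Fintype.card n : ℝ) * (p * (C + 1) ^ (p - 1))) := by
  obtain ⟨U, hU, hU', hd, -⟩ := exists_spec hA.1
  set a := hA.1.eigenvalues
  have eA : A = U * dg a * Uᴴ := by
    rw [show dg a = Uᴴ * A * U from hd.symm, ← Matrix.mul_assoc U, ← Matrix.mul_assoc U, hU', one_mul,
      Matrix.mul_assoc, hU', mul_one]
  rw [Link.powTr_eq hA.1 p]
  conv_lhs => rw [eA, Pencil.shiftE_conj hU', Pencil.shiftE_dg, Link.powTr_conj_dg hU']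
  rw [show ε * ((Fintype.card n : ℝ) * (p * (C + 1) ^ (p - 1))) = ∑ _i : n, p * ε * (C + 1) ^ (p - 1) by
    rw [Finset.sum_const, Finset.card_univ, nsmul_eq_mul]; ring, ← Finset.sum_add_distrib]
  refine Finset.sum_le_sum fun i _ => ?_
  have ha : 0 ≤ a i := hA.eigenvalues_nonneg i
  have hm : 0 < a i + ε := by linarith
  have haC : a i ≤ C := ((le_abs_self _).trans (Link.abs_eigenvalue_le hA.1 i)).trans hC
  have h := Link.tangent_le_rpow hp hm.le ha
  have e : (a i + ε) ^ p = (a i + ε) ^ (p - 1) * (a i + ε) := by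
    rw [← Real.rpow_add_one hm.ne']; ring_nf
  have h2 := mul_le_mul_of_nonneg_left (Real.rpow_le_rpow hm.le (show a i + ε ≤ C + 1 by linarith)
    (show 0 ≤ p - 1 by linarith)) (show 0 ≤ p * ε by positivity)
  rw [e] at h ⊢
  linarith

/-- The Riccati bound. -/
theorem ric_bound (hν : 0 < ν) (hν1 : ν < 1) (hL : 0 < L) (hE : E.PosDef)
    (hVc : ContinuousOn V (Icc (-L) L)) (hV : ∀ x ∈ Icc (-L) L, (V x).PosSemidef)
    (hB : Ric E V L B) (hR : B L = msqrt E) :
    2 * Link.endC ν * Link.powTr (ν + 1 / 2) E ≤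
      ν ^ ν / (ν + 1) ^ (ν + 1) * ∫ x in (-L)..L, Link.powTr (1 + ν) (V x) := by
  have hle : -L ≤ L := by linarith
  have hdomC := ric_domC hL hE hV hB (by rw [hR, sub_self]; exact Matrix.PosSemidef.zero)
  obtain ⟨C, hC⟩ := (isCompact_Icc (a := -L) (b := L)).exists_bound_of_continuousOn hVc
  have hint := (Link.continuousOn_powTr (r := 1 + ν) isCompact_Icc hVc (fun x hx => (hV x hx).1)
    (by linarith)).intervalIntegrable_of_Icc (μ := volume) hle
  set K : ℝ := (Fintype.card n : ℝ) * ((1 + ν) * (C + 1) ^ (1 + ν - 1))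
  set a : ℝ := ν ^ ν / (ν + 1) ^ (ν + 1)
  have ha : 0 ≤ a := by positivity
  set R := 2 * Link.endC ν * Link.powTr (ν + 1 / 2) E
  set J := ∫ x in (-L)..L, Link.powTr (1 + ν) (V x)
  have hmain : ∀ ε ∈ Ioc (0 : ℝ) 1, R ≤ a * (J + ε * (K * (L - -L))) := by
    intro ε hε
    set T := shiftE E ε
    have hTh : T.IsHermitian := by
      simp only [T, Pencil.shiftE]
      exact hE.1.add (by show _ = _; simp [conjTranspose_smul])
    set c : ℝ → Matrix n n ℂ := fun x => (2 : ℂ) • B x + I • T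
    set c' : ℝ → Matrix n n ℂ := fun x => (2 : ℂ) • (B x * B x - E + V x)
    have hdom : ∀ x ∈ Icc (-L) L, Pencil.Dom (B x) T := fun x hx => (hdomC x hx).shift hε.1
    have hmem : ∀ x ∈ Icc (-L) L, c x ∈ (Pencil.domZ : Set (Matrix n n ℂ)) := fun x hx => by
      show Pencil.Dom _ _
      rw [(Pencil.parts_eq (hB.herm x hx) hTh).1, (Pencil.parts_eq (hB.herm x hx) hTh).2]
      exact hdom x hx
    have hcd : ∀ x ∈ Icc (-L) L, HasDerivWithinAt c (c' x) (Icc (-L) L) x := fun x hx =>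
      ((hB.deriv x hx).const_smul (2 : ℂ)).add_const _
    have hcc : ContinuousOn c (Icc (-L) L) := fun x hx => (hcd x hx).continuousWithinAt
    have hVs : ∀ x ∈ Icc (-L) L, (shiftE (V x) ε).PosSemidef := fun x hx =>
      (hV x hx).add (Matrix.PosSemidef.one.smul (Complex.zero_le_real.2 hε.1.le))
    have hBc : ContinuousOn B (Icc (-L) L) := fun x hx => (hB.deriv x hx).continuousWithinAt
    have hc'c : ContinuousOn c' (Icc (-L) L) := (((hBc.mul hBc).sub continuousOn_const).add hVc).const_smul (2 : ℂ)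
    have hval : ∀ x ∈ Icc (-L) L, Pencil.dPhi ν (c x) (c' x) ≤
        a * Link.powTr (1 + ν) (shiftE (V x) ε) := fun x hx => by
      have hB' : (B x * B x - E + V x).IsHermitian :=
        ((Matrix.IsHermitian.sub (show (B x * B x).IsHermitian by
          show _ = _
          rw [conjTranspose_mul, (hB.herm x hx).eq]) hE.1)).add (hV x hx).1
      obtain ⟨a1, a2⟩ := Pencil.parts_eq (B := B x * B x - E + V x) (E := (0 : Matrix n n ℂ)) hB'
        (by simp [Matrix.IsHermitian])
      rw [smul_zero, add_zero] at a1 a2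
      obtain ⟨b1, b2⟩ := Pencil.parts_eq (hB.herm x hx) hTh
      rw [Pencil.dPhi_apply, a1, a2, mul_zero, Matrix.trace_zero, Complex.zero_re, add_zero, Pencil.XiZ_eq,
        b1, b2, show B x * B x - E + V x = shiftE (V x) ε - (T - B x * B x) by
          simp only [T, Pencil.shiftE]; abel, Link.powTr_eq (hVs x hx).1]
      exact Pencil.key_ineq' (hdom x hx) hν hν1 (hVs x hx)
    have hF : ContinuousOn (fun x => Pencil.dPhi ν (c x) (c' x)) (Icc (-L) L) := by
      obtain ⟨hX, hG⟩ := Pencil.contDiffOn_XiZ_GeZ (n := n) hν hν1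
      simp only [Pencil.dPhi_apply]
      exact ((Complex.continuous_re.comp_continuousOn ((continuous_id.matrix_trace).comp_continuousOn
          ((hX.continuousOn.comp hcc hmem).mul (Pencil.partBL.continuous.comp_continuousOn hc'c)))).add
        (Complex.continuous_re.comp_continuousOn ((continuous_id.matrix_trace).comp_continuousOn
          ((hG.continuousOn.comp hcc hmem).mul (Pencil.partEL.continuous.comp_continuousOn hc'c)))))
    have hFi := hF.intervalIntegrable_of_Icc (μ := volume) hle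
    have hfti := intervalIntegral.integral_eq_sub_of_hasDerivAt_of_le (f := fun x => Pencil.Phi ν (c x))
      (f' := fun x => Pencil.dPhi ν (c x) (c' x)) hle
      (fun x hx => (Pencil.hasFDerivAt_Phi hν hν1 (hmem x hx)).continuousAt.comp_continuousWithinAt (hcc x hx))
      (fun x hx => (Pencil.hasFDerivAt_Phi hν hν1 (hmem x (Ioo_subset_Icc_self hx))).comp_hasDerivAt x
        ((hcd x (Ioo_subset_Icc_self hx)).hasDerivAt (Icc_mem_nhds hx.1 hx.2))) hFi
    calc R ≤ Pencil.Phi ν (c L) - Pencil.Phi ν (c (-L)) := by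
          simp only [c, hR, hB.left]
          exact end_diff hν hν1 hE hε.1
      _ = ∫ x in (-L)..L, Pencil.dPhi ν (c x) (c' x) := hfti.symm
      _ ≤ ∫ x in (-L)..L, a * (Link.powTr (1 + ν) (V x) + ε * K) := by
          refine intervalIntegral.integral_mono_on hle hFi
            ((hint.add intervalIntegrable_const).const_mul a) fun x hx => ?_
          exact (hval x hx).trans (mul_le_mul_of_nonneg_left
            (powTr_shift_le (by linarith) (hV x hx) hε.1 hε.2 (hC x hx)) ha)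
      _ = _ := by
          rw [intervalIntegral.integral_const_mul, intervalIntegral.integral_add hint intervalIntegrable_const,
            intervalIntegral.integral_const, smul_eq_mul]
          ring
  have hlim : Filter.Tendsto (fun ε : ℝ => a * (J + ε * (K * (L - -L)))) (nhdsWithin 0 (Ioi 0)) (nhds (a * J)) := by
    have h : Continuous fun ε : ℝ => a * (J + ε * (K * (L - -L))) := by fun_prop
    simpa using (h.tendsto 0).mono_left nhdsWithin_le_nhds
  exact ge_of_tendsto hlim (Filter.eventually_of_mem (Ioc_mem_nhdsGT one_pos) hmain)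

end Vale.Agent.P371.Thr
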