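import Vale.Agent.P371.Thr.Defs
import Vale.Agent.P371.Link.Spectral
import Vale.Agent.P371.Link.Stationary

/-!
P371, threshold method T2: the family of problems over the density matrices. Everything is read off
the spectral representation of the functional calculus of a Hermitian matrix.
-/

namespace Vale.Agent.P371.Thr

open _root_.Matrix Complex MeasureTheory Set
open scoped ComplexOrder Matrix.Norms.L2Operator

variable {n : Type} [Fintype n] [DecidableEq n] {m : Type} [Fintype m] [DecidableEq m]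
  {E D : Matrix n n ℂ} {P P' : ℝ → Matrix n m ℂ} {W : ℝ → Matrix m m ℂ} {L η δ d : ℝ}

lemma exists_spec {A : Matrix n n ℂ} (hA : A.IsHermitian) :
    ∃ U : Matrix n n ℂ, Uᴴ * U = 1 ∧ U * Uᴴ = 1 ∧
      Uᴴ * A * U = diagonal (fun i => (hA.eigenvalues i : ℂ)) ∧
      ∀ f : ℝ → ℝ, cfc f A = U * diagonal (fun i => (f (hA.eigenvalues i) : ℂ)) * Uᴴ := by
  refine ⟨(hA.eigenvectorUnitary : Matrix n n ℂ), Unitary.coe_star_mul_self _, Unitary.coe_mul_star_self _,
    ?_, fun f => ?_⟩
  · simpa [Unitary.conjStarAlgAut_apply, Matrix.star_eq_conjTranspose, Function.comp_def] using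
      hA.conjStarAlgAut_star_eigenvectorUnitary
  · rw [hA.cfc_eq]
    rfl

lemma posSemidef_cfc {A : Matrix n n ℂ} (hA : A.PosSemidef) {f : ℝ → ℝ} (hf : ∀ t, 0 ≤ t → 0 ≤ f t) :
    (cfc f A).PosSemidef := by
  obtain ⟨U, -, -, -, h⟩ := exists_spec hA.1
  rw [h]
  exact (posSemidef_diagonal_iff.2 fun i =>
    Complex.zero_le_real.2 (hf _ (hA.eigenvalues_nonneg i))).mul_mul_conjTranspose_same U

lemma cfc_ext {A : Matrix n n ℂ} (hA : A.PosSemidef) {f g : ℝ → ℝ} (h : ∀ t, 0 ≤ t → f t = g t) :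
    cfc f A = cfc g A := by
  obtain ⟨U, -, -, -, hU⟩ := exists_spec hA.1
  simp only [hU, fun i => h _ (hA.eigenvalues_nonneg i)]

lemma cfc_prod (f g : ℝ → ℝ) (A : Matrix n n ℂ) : cfc f A * cfc g A = cfc (fun t => f t * g t) A :=
  (cfc_mul f g A (A.finite_real_spectrum.continuousOn f) (A.finite_real_spectrum.continuousOn g)).symm

lemma isHermitian_cfc (f : ℝ → ℝ) (A : Matrix n n ℂ) : (cfc f A).IsHermitian :=
  (cfc_predicate f A : IsSelfAdjoint _)

lemma smul_one_sub_cfc {A : Matrix n n ℂ} (hA : A.PosSemidef) (f : ℝ → ℝ) (c : ℝ) :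
    c • (1 : Matrix n n ℂ) - cfc f A = cfc (fun t => c - f t) A := by
  rw [cfc_sub (fun _ => c) f A continuousOn_const (A.finite_real_spectrum.continuousOn f)]
  congr 1
  exact ((cfc_const c A hA.1.isSelfAdjoint).trans (Algebra.algebraMap_eq_smul_one c)).symm

lemma cfc_mulVec_ker {A : Matrix n n ℂ} (hA : A.IsHermitian) (f : ℝ → ℝ) {v : n → ℂ} (hv : A *ᵥ v = 0) :
    cfc f A *ᵥ v = (f 0 : ℂ) • v := by
  obtain ⟨U, hU, hU', hd, h⟩ := exists_spec hA
  have hw : diagonal (fun i => (hA.eigenvalues i : ℂ)) *ᵥ (Uᴴ *ᵥ v) = 0 := by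
    rw [← hd, mulVec_mulVec, Matrix.mul_assoc, hU', Matrix.mul_one, ← mulVec_mulVec, hv, mulVec_zero]
  have hf : diagonal (fun i => (f (hA.eigenvalues i) : ℂ)) *ᵥ (Uᴴ *ᵥ v) = (f 0 : ℂ) • (Uᴴ *ᵥ v) := by
    funext i
    have := congrFun hw i
    rw [mulVec_diagonal, Pi.zero_apply, mul_eq_zero, Complex.ofReal_eq_zero] at this
    rcases this with h0 | h0 <;> simp [mulVec_diagonal, h0]
  rw [h, ← mulVec_mulVec, ← mulVec_mulVec, hf, mulVec_smul, mulVec_mulVec, hU', one_mulVec]

lemma sum_eigenvalues (hD : D ∈ (Dens : Set (Matrix n n ℂ))) : ∑ i, hD.1.1.eigenvalues i = 1 := by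
  have h := congrArg Complex.re hD.1.1.trace_eq_sum_eigenvalues
  rw [Complex.re_sum] at h
  have h' : ∑ i, hD.1.1.eigenvalues i = D.trace.re := by simpa using h.symm
  exact h'.trans hD.2

lemma spectrum_nonneg {A : Matrix n n ℂ} (hA : A.PosSemidef) {t : ℝ} (ht : t ∈ spectrum ℝ A) : 0 ≤ t := by
  obtain ⟨i, rfl⟩ := hA.1.spectrum_real_eq_range_eigenvalues ▸ ht
  exact hA.eigenvalues_nonneg i

lemma spectrum_subset (hD : D ∈ (Dens : Set (Matrix n n ℂ))) : spectrum ℝ D ⊆ Icc 0 1 := by
  rw [hD.1.1.spectrum_real_eq_range_eigenvalues]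
  rintro _ ⟨i, rfl⟩
  refine ⟨hD.1.eigenvalues_nonneg i, ?_⟩
  exact (Finset.single_le_sum (fun j _ => hD.1.eigenvalues_nonneg j) (Finset.mem_univ i)).trans
    (sum_eigenvalues hD).le

lemma msqrt_mul_self (hD : D.PosSemidef) : msqrt D * msqrt D = D := by
  rw [msqrt, cfc_prod, cfc_ext hD fun t ht => Real.mul_self_sqrt ht]
  exact cfc_id' ℝ D hD.1.isSelfAdjoint

lemma conjTranspose_msqrt (M : Matrix n n ℂ) : (msqrt M)ᴴ = msqrt M := isHermitian_cfc _ _

omit [Fintype n] [DecidableEq n] in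
lemma conj_diag_re {k : Type} [Fintype k] [DecidableEq k] (C : Matrix k n ℂ) (w : k → ℝ) (i : n) :
    ((Cᴴ * diagonal (fun j => (w j : ℂ)) * C) i i).re = ∑ j, Complex.normSq (C j i) * w j := by
  rw [Matrix.mul_apply, Complex.re_sum]
  refine Finset.sum_congr rfl fun j _ => ?_
  rw [Matrix.mul_diagonal, conjTranspose_apply, Complex.star_def, mul_right_comm,
    ← Complex.normSq_eq_conj_mul_self, ← Complex.ofReal_mul, Complex.ofReal_re]

omit [Fintype n] in
lemma sum_normSq_col {k : Type} [Fintype k] [DecidableEq k] {C : Matrix k n ℂ} (hC : Cᴴ * C = 1) (i : n) :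
    ∑ j, Complex.normSq (C j i) = 1 := by
  have h := conj_diag_re C (fun _ => 1) i
  simp only [Complex.ofReal_one, diagonal_one, Matrix.mul_one, hC, one_apply_eq, Complex.one_re,
    mul_one] at h
  exact h.symm

lemma sum_normSq_col_le {k : Type} [Fintype k] [DecidableEq k] {C : Matrix k n ℂ} (hC : ‖C‖ ≤ 1) (i : n) :
    ∑ j, Complex.normSq (C j i) ≤ 1 := by
  have h := l2_opNorm_mulVec C (EuclideanSpace.single i 1)
  rw [PiLp.ofLp_single, mulVec_single_one, PiLp.norm_single, norm_one, mul_one] at h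
  have h2 := pow_le_pow_left₀ (norm_nonneg _) (h.trans hC) 2
  simpa [EuclideanSpace.norm_sq_eq, Complex.normSq_eq_norm_sq] using h2

lemma sum_normSq_row {C : Matrix n n ℂ} (hC : Cᴴ * C = 1) (j : n) :
    ∑ i, Complex.normSq (C j i) = 1 := by
  simpa [Complex.normSq_conj] using
    sum_normSq_col (C := Cᴴ) (by rw [conjTranspose_conjTranspose, mul_eq_one_comm.1 hC]) j

/-- Jensen for weights of total at most one. -/
lemma rpow_sum_le {ι : Type} [Fintype ι] {c w : ι → ℝ} (hc : ∀ i, 0 ≤ c i) (hs : ∑ i, c i ≤ 1)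
    (hw : ∀ i, 0 ≤ w i) {r : ℝ} (hr : 1 ≤ r) : (∑ i, c i * w i) ^ r ≤ ∑ i, c i * w i ^ r := by
  have hR : 0 ≤ ∑ i, c i * w i ^ r := Finset.sum_nonneg fun i _ => mul_nonneg (hc i) (Real.rpow_nonneg (hw i) _)
  rcases (Finset.sum_nonneg fun i _ => hc i : 0 ≤ ∑ i, c i).eq_or_lt with h0 | h0
  · have hz := (Finset.sum_eq_zero_iff_of_nonneg fun i _ => hc i).1 h0.symm
    simp [Finset.sum_eq_zero fun i hi => show c i * w i = 0 by rw [hz i hi, zero_mul],
      Real.zero_rpow (show r ≠ 0 by linarith), hR]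
  set s := ∑ i, c i
  have hJ := Real.rpow_arith_mean_le_arith_mean_rpow Finset.univ (fun i => c i / s) w
    (fun i _ => div_nonneg (hc i) h0.le) (by rw [← Finset.sum_div, div_self h0.ne']) (fun i _ => hw i) hr
  simp only [div_mul_eq_mul_div, ← Finset.sum_div] at hJ
  rw [Real.div_rpow (Finset.sum_nonneg fun i _ => mul_nonneg (hc i) (hw i)) h0.le,
    div_le_iff₀ (Real.rpow_pos_of_pos h0 r)] at hJ
  refine hJ.trans ?_
  rw [div_mul_eq_mul_div, mul_div_assoc, ← Real.rpow_sub_one h0.ne']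
  exact mul_le_of_le_one_right hR (Real.rpow_le_one h0.le hs (by linarith))

/-- Power traces are monotone in the Loewner order. -/
theorem powTr_mono {r : ℝ} (hr : 0 ≤ r) {F : Matrix n n ℂ} (hE : E.PosSemidef)
    (h : (F - E).PosSemidef) : Link.powTr r E ≤ Link.powTr r F := by
  have hF : F.PosSemidef := by simpa using hE.add h
  obtain ⟨U, hU, hU', hUd, -⟩ := exists_spec hE.1
  obtain ⟨V, hV, hV', hVd, -⟩ := exists_spec hF.1
  have he := hE.eigenvalues_nonneg
  have hf := hF.eigenvalues_nonneg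
  rw [Link.powTr_eq hE.1, Link.powTr_eq hF.1]
  set e := hE.1.eigenvalues
  set f := hF.1.eigenvalues
  have hdiag : ∀ (Z : Matrix n n ℂ) i, ((Zᴴ * E * Z) i i).re ≤ ((Zᴴ * F * Z) i i).re := fun Z i => by
    have h1 := (Complex.nonneg_iff.1 ((h.conjTranspose_mul_mul_same Z).diag_nonneg (i := i))).1
    rw [Matrix.mul_sub, Matrix.sub_mul, Matrix.sub_apply, Complex.sub_re] at h1
    linarith
  have unit : ∀ {X Y : Matrix n n ℂ}, Xᴴ * X = 1 → Y * Yᴴ = 1 → (Yᴴ * X)ᴴ * (Yᴴ * X) = 1 := fun hX hY => by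
    rw [conjTranspose_mul, conjTranspose_conjTranspose, Matrix.mul_assoc, ← Matrix.mul_assoc _ _ᴴ, hY,
      Matrix.one_mul, hX]
  have conj : ∀ {X Y Z : Matrix n n ℂ} {z : n → ℝ}, Y * Yᴴ = 1 →
      Yᴴ * Z * Y = diagonal (fun i => (z i : ℂ)) →
      Xᴴ * Z * X = (Yᴴ * X)ᴴ * diagonal (fun i => (z i : ℂ)) * (Yᴴ * X) := fun {X Y Z z} hY hd => by
    rw [← hd, conjTranspose_mul, conjTranspose_conjTranspose,
      show Xᴴ * Y * (Yᴴ * Z * Y) * (Yᴴ * X) = Xᴴ * (Y * Yᴴ) * Z * (Y * Yᴴ) * X by
        simp only [Matrix.mul_assoc], hY, Matrix.mul_one, Matrix.mul_one]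
  rcases le_total 1 r with hr1 | hr1
  · have hC := unit hU hV'
    calc ∑ i, e i ^ r ≤ ∑ i, ∑ j, Complex.normSq ((Vᴴ * U) j i) * f j ^ r := Finset.sum_le_sum fun i _ => by
          refine le_trans (Real.rpow_le_rpow (he i) ?_ hr) (rpow_sum_le (fun j => Complex.normSq_nonneg _)
            (sum_normSq_col hC i).le hf hr1)
          have h1 := hdiag U i
          rw [hUd, conj (X := U) hV' hVd, diagonal_apply_eq, Complex.ofReal_re, conj_diag_re] at h1
          exact h1
      _ = _ := by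
          rw [Finset.sum_comm]
          simp only [← Finset.sum_mul, sum_normSq_row hC, one_mul]
  · have hC := unit hV hU'
    calc ∑ i, e i ^ r = ∑ j, ∑ i, Complex.normSq ((Uᴴ * V) i j) * e i ^ r := by
          rw [Finset.sum_comm]
          simp only [← Finset.sum_mul, sum_normSq_row hC, one_mul]
      _ ≤ _ := Finset.sum_le_sum fun j _ => by
          refine le_trans ?_ (Real.rpow_le_rpow (x := ∑ i, Complex.normSq ((Uᴴ * V) i j) * e i)
            (Finset.sum_nonneg fun i _ => mul_nonneg (Complex.normSq_nonneg _) (he i)) ?_ hr)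
          · exact (Real.concaveOn_rpow hr hr1).le_map_sum (fun i _ => Complex.normSq_nonneg ((Uᴴ * V) i j))
              (sum_normSq_col hC j) (fun i _ => he i)
          · have h1 := hdiag V j
            rw [hVd, conj (X := V) hU' hUd, diagonal_apply_eq, Complex.ofReal_re, conj_diag_re] at h1
            exact h1

lemma smul_one_sub_self {A : Matrix n n ℂ} (hA : A.IsHermitian) : (‖A‖ • (1 : Matrix n n ℂ) - A).PosSemidef := by
  obtain ⟨U, -, hU', hd, -⟩ := exists_spec hA
  have h : (diagonal fun i => ((‖A‖ - hA.eigenvalues i : ℝ) : ℂ)).PosSemidef :=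
    posSemidef_diagonal_iff.2 fun i => Complex.zero_le_real.2
      (sub_nonneg.2 ((le_abs_self _).trans (Link.abs_eigenvalue_le hA i)))
  convert h.mul_mul_conjTranspose_same U using 1
  rw [show (diagonal fun i => ((‖A‖ - hA.eigenvalues i : ℝ) : ℂ)) = ‖A‖ • (1 : Matrix n n ℂ) - Uᴴ * A * U by
      rw [hd]
      ext i j
      by_cases hij : i = j <;> simp [hij]]
  simp only [Matrix.mul_sub, Matrix.sub_mul, mul_smul_comm, smul_mul_assoc, Matrix.mul_one, hU']
  rw [show U * (Uᴴ * A * U) * Uᴴ = U * Uᴴ * A * (U * Uᴴ) by simp only [Matrix.mul_assoc], hU',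
    Matrix.one_mul, Matrix.mul_one]

/-- The penalised coefficient dominates the original one. -/
theorem ED_spec (hη : 0 < η) (hδ : 0 < δ) (hE : E.PosDef) (hD : D ∈ (Dens : Set (Matrix n n ℂ))) :
    (ED η δ E D - E).PosSemidef ∧ (ED η δ E D).PosDef := by
  have hC : (cut δ D)ᴴ = cut δ D := isHermitian_cfc _ _
  have h1 := ((smul_one_sub_self hE.1).mul_mul_conjTranspose_same (1 - cut δ D)).smul
    (show 0 ≤ 1 + 1 / η by positivity)
  have h2 := (hE.posSemidef.mul_mul_conjTranspose_same (cut δ D - η⁻¹ • (1 - cut δ D))).smul hη.le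
  have e : ED η δ E D - E = (1 + 1 / η) • ((1 - cut δ D) * (‖E‖ • 1 - E) * (1 - cut δ D)ᴴ) +
      η • ((cut δ D - η⁻¹ • (1 - cut δ D)) * E * (cut δ D - η⁻¹ • (1 - cut δ D))ᴴ) := by
    simp only [ED, pen, conjTranspose_sub, conjTranspose_smul, conjTranspose_one, hC, star_trivial,
      Matrix.sub_mul, Matrix.mul_sub, smul_sub, smul_mul_assoc, mul_smul_comm, smul_smul, Matrix.one_mul,
      Matrix.mul_one]
    match_scalars <;> field_simp <;> ring
  have h3 : (ED η δ E D - E).PosSemidef := e ▸ h1.add h2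
  exact ⟨h3, by simpa using hE.add_posSemidef h3⟩

/-- On the kernel of `D` the coefficient is the penalty and the potential vanishes. -/
theorem kernel_spec (hη : 0 < η) (hδ : 0 < δ) (hE : E.PosDef) (hD : D ∈ (Dens : Set (Matrix n n ℂ)))
    {v : n → ℂ} (hv : D *ᵥ v = 0) :
    ED η δ E D *ᵥ v = (pen η E : ℂ) • v ∧ ∀ x, VD d P W D x *ᵥ v = 0 := by
  have hC : cut δ D *ᵥ v = 0 := by
    rw [cut, cfc_mulVec_ker hD.1.1 _ hv]
    simp
  have hA : msqrt D *ᵥ v = 0 := by
    rw [msqrt, cfc_mulVec_ker hD.1.1 _ hv]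
    simp
  refine ⟨?_, fun x => ?_⟩
  · simp only [ED, add_mulVec, smul_mulVec, ← mulVec_mulVec, hC, mulVec_zero, smul_zero, zero_add,
      sub_mulVec, one_mulVec, sub_zero, Complex.coe_smul]
  · simp only [VD, frame, conjTranspose_mul, conjTranspose_msqrt, ← Matrix.mul_assoc, ← mulVec_mulVec, hA,
      mulVec_zero]

omit [DecidableEq n] [DecidableEq m] in
lemma posSemidef_rho (hD : D.PosSemidef) (x : ℝ) : (rhoD P D x).PosSemidef :=
  hD.conjTranspose_mul_mul_same (P x)

lemma frame_norm_le (hd : 0 < d) (hD : D.PosSemidef) (x : ℝ) : ‖frame d P D x‖ ≤ 1 := by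
  set g : ℝ → ℝ := fun t => (Real.sqrt (t + d))⁻¹
  have hρ := posSemidef_rho (P := P) hD x
  have e : (frame d P D x)ᴴ * frame d P D x = cfc (fun t => g t * t * g t) (rhoD P D x) := by
    have h : (frame d P D x)ᴴ * frame d P D x = cfc g (rhoD P D x) * rhoD P D x * cfc g (rhoD P D x) := by
      rw [frame, rhoD, conjTranspose_mul, conjTranspose_mul, conjTranspose_msqrt, (isHermitian_cfc _ _).eq]
      conv_rhs => rw [← msqrt_mul_self hD]
      simp only [g, Matrix.mul_assoc, ← Matrix.mul_assoc (msqrt D) (msqrt D), msqrt_mul_self hD]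
    conv at h => rhs; arg 1; arg 2; rw [← cfc_id' ℝ (rhoD P D x) hρ.1.isSelfAdjoint]
    rw [h, cfc_prod, cfc_prod]
  have h : ‖cfc (fun t => g t * t * g t) (rhoD P D x)‖ ≤ 1 := norm_cfc_le zero_le_one fun t ht => by
    have ht0 := spectrum_nonneg hρ ht
    have hs : Real.sqrt (t + d) * Real.sqrt (t + d) = t + d := Real.mul_self_sqrt (by linarith)
    rw [show g t * t * g t = t / (t + d) by
      simp only [g]; rw [mul_right_comm, ← mul_inv, hs, inv_mul_eq_div],
      Real.norm_of_nonneg (by positivity), div_le_one (by linarith)]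
    linarith
  rw [← e, l2_opNorm_conjTranspose_mul_self] at h
  nlinarith [norm_nonneg (frame d P D x)]

lemma norm_le_one_of_unit {U : Matrix n n ℂ} (hU : Uᴴ * U = 1) : ‖U‖ ≤ 1 := by
  have h : ‖U‖ * ‖U‖ ≤ 1 := by
    rw [← l2_opNorm_conjTranspose_mul_self, hU, ← diagonal_one, l2_opNorm_diagonal,
      pi_norm_le_iff_of_nonneg zero_le_one]
    simp
  nlinarith [norm_nonneg U]

/-- The transported potential is positive and its power trace is dominated. -/
theorem VD_spec (hd : 0 < d) (hD : D ∈ (Dens : Set (Matrix n n ℂ))) (hW : ∀ x, (W x).PosSemidef)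
    {r : ℝ} (hr : 1 ≤ r) (x : ℝ) :
    (VD d P W D x).PosSemidef ∧ Link.powTr r (VD d P W D x) ≤ Link.powTr r (W x) := by
  have hY : (VD d P W D x).PosSemidef := (hW x).mul_mul_conjTranspose_same _
  refine ⟨hY, ?_⟩
  have hY0 := hY.eigenvalues_nonneg
  obtain ⟨V, hV, -, hVd, -⟩ := exists_spec hY.1
  obtain ⟨U, hU, hU', hUd, -⟩ := exists_spec (hW x).1
  set K := frame d P D x
  set C : Matrix m n ℂ := Uᴴ * Kᴴ * V
  have hCn : ‖C‖ ≤ 1 := by
    refine (l2_opNorm_mul _ _).trans (mul_le_one₀ ((l2_opNorm_mul _ _).trans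
      (mul_le_one₀ ?_ (norm_nonneg _) ?_)) (norm_nonneg _) (norm_le_one_of_unit hV))
    · rw [l2_opNorm_conjTranspose]; exact norm_le_one_of_unit hU
    · rw [l2_opNorm_conjTranspose]; exact frame_norm_le hd hD.1 x
  have hrow : ∀ j, ∑ i, Complex.normSq (C j i) ≤ 1 := fun j => by
    simpa [Complex.normSq_conj] using sum_normSq_col_le (C := Cᴴ) (by rwa [l2_opNorm_conjTranspose]) j
  have he : ∀ i, hY.1.eigenvalues i = ∑ j, Complex.normSq (C j i) * (hW x).1.eigenvalues j := fun i => by
    rw [← conj_diag_re C, ← hUd,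
      show Cᴴ * (Uᴴ * W x * U) * C = Vᴴ * (K * (U * Uᴴ) * W x * (U * Uᴴ) * Kᴴ) * V by
        simp only [C, conjTranspose_mul, conjTranspose_conjTranspose, Matrix.mul_assoc],
      hU', Matrix.mul_one, Matrix.mul_one, show K * W x * Kᴴ = VD d P W D x from rfl, hVd,
      diagonal_apply_eq, Complex.ofReal_re]
  rw [Link.powTr_eq hY.1, Link.powTr_eq (hW x).1]
  calc ∑ i, hY.1.eigenvalues i ^ r
      ≤ ∑ i, ∑ j, Complex.normSq (C j i) * (hW x).1.eigenvalues j ^ r := Finset.sum_le_sum fun i _ => by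
        rw [he]
        exact rpow_sum_le (fun j => Complex.normSq_nonneg _) (sum_normSq_col_le hCn i)
          (hW x).eigenvalues_nonneg hr
    _ ≤ _ := by
        rw [Finset.sum_comm]
        simp only [← Finset.sum_mul]
        exact Finset.sum_le_sum fun j _ => mul_le_of_le_one_left
          (Real.rpow_nonneg ((hW x).eigenvalues_nonneg j) _) (hrow j)

lemma continuous_of_data (h : Data E P P' W L) : Continuous P :=
  continuous_iff_continuousAt.2 fun x => (h.derivP x).continuousAt

lemma continuousOn_mmul {X : Type*} [TopologicalSpace X] {s : Set X} {a b c : Type} [Fintype a] [Fintype b]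
    [Fintype c] [DecidableEq a] [DecidableEq b] [DecidableEq c] {f : X → Matrix a b ℂ} {g : X → Matrix b c ℂ}
    (hf : ContinuousOn f s) (hg : ContinuousOn g s) : ContinuousOn (fun q => f q * g q) s :=
  (continuous_fst.matrix_mul continuous_snd).comp_continuousOn (hf.prodMk hg)

lemma continuousOn_msqrt : ContinuousOn msqrt (Dens : Set (Matrix n n ℂ)) :=
  ContinuousOn.cfc' isCompact_Icc Real.sqrt continuousOn_id (fun _ => spectrum_subset)
    (fun _ hD => hD.1.1) Real.continuous_sqrt.continuousOn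

/-- The family is continuous. -/
theorem continuous_family (hd : 0 < d) (h : Data E P P' W L) :
    ContinuousOn (ED η δ E) (Dens : Set (Matrix n n ℂ)) ∧
      ContinuousOn (fun q : Matrix n n ℂ × ℝ => VD d P W q.1 q.2) (Dens ×ˢ univ) := by
  constructor
  · have hc : ContinuousOn (cut δ) (Dens : Set (Matrix n n ℂ)) :=
      ContinuousOn.cfc' isCompact_Icc _ continuousOn_id (fun _ => spectrum_subset) (fun _ hD => hD.1.1)
        (continuous_const.min (continuous_id.div_const δ)).continuousOn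
    exact (((hc.mul continuousOn_const).mul hc).const_smul (1 + η)).add
      (((continuousOn_const.sub hc).mul (continuousOn_const.sub hc)).const_smul (pen η E))
  set s := (Dens ×ˢ univ : Set (Matrix n n ℂ × ℝ))
  have hP : ContinuousOn (fun q : Matrix n n ℂ × ℝ => P q.2) s :=
    ((continuous_of_data h).comp continuous_snd).continuousOn
  have hρ : ContinuousOn (fun q : Matrix n n ℂ × ℝ => rhoD P q.1 q.2) s :=
    continuousOn_mmul (continuousOn_mmul (continuous_id.matrix_conjTranspose.comp_continuousOn hP)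
      continuousOn_fst) hP
  have hg : ContinuousOn (fun q : Matrix n n ℂ × ℝ =>
      cfc (fun t : ℝ => (Real.sqrt (max t 0 + d))⁻¹) (rhoD P q.1 q.2)) s :=
    ContinuousOn.cfc_of_mem_nhdsSet (s := univ) _ Filter.univ_mem hρ
      (fun q hq => (posSemidef_rho hq.1.1 _).1)
      (((continuous_id.max continuous_const).add continuous_const).sqrt.inv₀
        fun t => (Real.sqrt_pos.2 (add_pos_of_nonneg_of_pos (le_max_right _ _) hd)).ne').continuousOn
  have hK : ContinuousOn (fun q : Matrix n n ℂ × ℝ => frame d P q.1 q.2) s :=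
    (continuousOn_mmul (continuousOn_mmul (continuousOn_msqrt.comp continuousOn_fst fun q hq => hq.1) hP)
      hg).congr fun q hq => by
        rw [frame, cfc_ext (posSemidef_rho hq.1.1 q.2)
          (g := fun t : ℝ => (Real.sqrt (max t 0 + d))⁻¹) fun t ht => by rw [max_eq_left ht]]
        rfl
  exact continuousOn_mmul (continuousOn_mmul hK (h.contW.comp continuous_snd).continuousOn)
    (continuous_id.matrix_conjTranspose.comp_continuousOn hK)

lemma trace_mul_cfc_le {A : Matrix n n ℂ} (hA : A.PosSemidef) {X : Matrix n n ℂ} (hX : X.PosSemidef)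
    {f : ℝ → ℝ} {c : ℝ} (hf : ∀ t, 0 ≤ t → f t ≤ c) : (X * cfc f A).trace.re ≤ c * X.trace.re := by
  have h := Link.trace_mul_re_nonneg hX (posSemidef_cfc hA (f := fun t => c - f t)
    fun t ht => sub_nonneg.2 (hf t ht))
  rw [← smul_one_sub_cfc hA, Matrix.mul_sub, mul_smul_comm, Matrix.mul_one, Matrix.trace_sub,
    Matrix.trace_smul, Complex.sub_re, Complex.smul_re, smul_eq_mul] at h
  linarith

lemma trace_VD (hd : 0 < d) (hD : D.PosSemidef) (hW : ∀ x, (W x).PosSemidef) (x : ℝ) :
    (W x * rhoD P D x).trace.re - d * (W x).trace.re ≤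
      ((P x)ᴴ * msqrt D * VD d P W D x * msqrt D * P x).trace.re := by
  set A := msqrt D
  set ρ := rhoD P D x
  set g : ℝ → ℝ := fun t => (Real.sqrt (t + d))⁻¹
  have hρ : ρ.PosSemidef := posSemidef_rho hD x
  have hAA : (P x)ᴴ * A * A * P x = ρ := by rw [Matrix.mul_assoc _ A A, msqrt_mul_self hD]; rfl
  have hid : cfc (fun t : ℝ => t) ρ = ρ := cfc_id' ℝ ρ hρ.1.isSelfAdjoint
  have e : ((P x)ᴴ * A * VD d P W D x * A * P x).trace =
      (W x * cfc (fun t => g t * t * (t * g t)) ρ).trace := by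
    rw [← cfc_prod, ← cfc_prod, ← cfc_prod, hid, VD, frame, conjTranspose_mul, conjTranspose_mul,
      conjTranspose_msqrt, (isHermitian_cfc g ρ).eq]
    rw [show (P x)ᴴ * A * (A * P x * cfc g ρ * W x * (cfc g ρ * ((P x)ᴴ * A))) * A * P x =
      ((P x)ᴴ * A * A * P x) * cfc g ρ * W x * (cfc g ρ * ((P x)ᴴ * A * A * P x)) by
        simp only [Matrix.mul_assoc], hAA, Matrix.trace_mul_cycle, Matrix.trace_mul_comm]
  have h1 := trace_mul_cfc_le hρ (hW x) (c := d) (f := fun t => t - g t * t * (t * g t)) fun t ht => by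
    have hs : Real.sqrt (t + d) * Real.sqrt (t + d) = t + d := Real.mul_self_sqrt (by linarith)
    rw [show g t * t * (t * g t) = t * t / (t + d) by
      simp only [g]; rw [show ∀ a : ℝ, a * t * (t * a) = t * t * (a * a) from fun a => by ring, ← mul_inv,
        hs, div_eq_mul_inv],
      sub_le_iff_le_add, ← sub_le_iff_le_add', le_div_iff₀ (by linarith)]
    nlinarith
  rw [cfc_sub _ _ ρ (ρ.finite_real_spectrum.continuousOn _) (ρ.finite_real_spectrum.continuousOn _), hid,
    Matrix.mul_sub, Matrix.trace_sub, Complex.sub_re, ← e] at h1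
  linarith

lemma trace_D_ED_le (hη : 0 < η) (hδ : 0 < δ) (hE : E.PosDef) (hD : D ∈ (Dens : Set (Matrix n n ℂ))) :
    (D * ED η δ E D).trace.re ≤ (1 + η) * (D * E).trace.re + pen η E * (Fintype.card n : ℝ) * δ := by
  set c : ℝ → ℝ := fun t => min 1 (t / δ)
  have hc : ∀ t, 0 ≤ t → 0 ≤ c t ∧ c t ≤ 1 := fun t ht =>
    ⟨le_min zero_le_one (by positivity), min_le_left _ _⟩
  have hid : cfc (fun t : ℝ => t) D = D := cfc_id' ℝ D hD.1.1.isSelfAdjoint
  have h1 : (cut δ D * E * cut δ D * D).trace.re ≤ (D * E).trace.re := by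
    have h := Link.trace_mul_re_nonneg hE.posSemidef (posSemidef_cfc hD.1 (f := fun t => t - c t * t * c t)
      fun t ht => by nlinarith [hc t ht, mul_le_one₀ (hc t ht).2 (hc t ht).1 (hc t ht).2])
    rw [cfc_sub _ _ D (D.finite_real_spectrum.continuousOn _) (D.finite_real_spectrum.continuousOn _),
      ← cfc_prod, ← cfc_prod, hid, Matrix.mul_sub, Matrix.trace_sub, Complex.sub_re,
      Matrix.trace_mul_comm E D] at h
    rw [show (cut δ D * E * cut δ D * D).trace = (E * (cfc c D * D * cfc c D)).trace by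
      rw [cut, Matrix.mul_assoc (cfc c D) E, Matrix.mul_assoc (cfc c D), Matrix.trace_mul_comm]
      simp only [c, Matrix.mul_assoc]]
    linarith
  have h2 : (((1 - cut δ D) * (1 - cut δ D)) * D).trace.re ≤ δ * (Fintype.card n : ℝ) := by
    have hq : 1 - cut δ D = cfc (fun t => 1 - c t) D := by
      rw [← smul_one_sub_cfc hD.1, one_smul]; rfl
    have h := trace_mul_cfc_le hD.1 (X := (1 : Matrix n n ℂ)) PosSemidef.one (c := δ)
      (f := fun t => (1 - c t) * (1 - c t) * t) fun t ht => by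
        rcases le_total t δ with htδ | htδ
        · exact (mul_le_of_le_one_left ht (mul_le_one₀ (by linarith [hc t ht]) (by linarith [hc t ht])
            (by linarith [hc t ht]))).trans htδ
        · rw [show c t = 1 from min_eq_left ((one_le_div hδ).2 htδ)]
          simp [hδ.le]
    rw [← cfc_prod, ← cfc_prod, hid, ← hq, Matrix.one_mul, Matrix.trace_one] at h
    simpa using h
  have hp : 0 ≤ pen η E := by unfold pen; positivity
  rw [Matrix.trace_mul_comm D]
  simp only [ED, Matrix.add_mul, smul_mul_assoc, Matrix.trace_add, Matrix.trace_smul, Complex.add_re,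
    Complex.smul_re, smul_eq_mul]
  nlinarith [mul_le_mul_of_nonneg_left h2 hp]

/-- Right and left multiplication by constants, as a linear map. -/
noncomputable def sandwich (A : Matrix n n ℂ) (S : Matrix m n ℂ) : Matrix n m ℂ →L[ℝ] Matrix n n ℂ :=
  LinearMap.toContinuousLinearMap
    { toFun := fun X => A * X * S
      map_add' := fun X Y => by rw [Matrix.mul_add, Matrix.add_mul]
      map_smul' := fun a X => by simp }

/-- The pairing with a fixed matrix, as a linear map. -/
noncomputable def traceWith (D : Matrix n n ℂ) : Matrix n n ℂ →L[ℝ] ℝ :=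
  LinearMap.toContinuousLinearMap
    { toFun := fun X => (D * X).trace.re
      map_add' := fun X Y => by simp [Matrix.mul_add]
      map_smul' := fun a X => by simp }

lemma continuous_VD (hd : 0 < d) (h : Data E P P' W L) (hD : D ∈ (Dens : Set (Matrix n n ℂ))) :
    Continuous fun x => VD d P W D x := by
  have h2 := (continuous_family (η := (1 : ℝ)) (δ := (1 : ℝ)) hd h).2
  have h3 : ContinuousOn (fun x : ℝ => (D, x)) univ := (continuous_const.prodMk continuous_id).continuousOn
  have hm : MapsTo (fun x : ℝ => (D, x)) univ ((Dens : Set (Matrix n n ℂ)) ×ˢ univ) :=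
    fun x _ => mk_mem_prod hD (mem_univ x)
  have h4 := h2.comp h3 hm
  rw [continuousOn_univ] at h4
  exact h4

/-- The column-summed integrand of the trial form. -/
noncomputable def trialR (η δ d κ : ℝ) (E : Matrix n n ℂ) (P P' : ℝ → Matrix n m ℂ)
    (W : ℝ → Matrix m m ℂ) (D : Matrix n n ℂ) (x : ℝ) : Matrix m m ℂ :=
  (P' x)ᴴ * D * P' x + (P x)ᴴ * msqrt D * (ED η δ E D - (1 + κ) • VD d P W D x) * msqrt D * P x

lemma continuous_trialR (hd : 0 < d) (h : Data E P P' W L) (hD : D ∈ (Dens : Set (Matrix n n ℂ)))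
    (κ : ℝ) : Continuous (trialR η δ d κ E P P' W D) :=
  ((h.contP'.matrix_conjTranspose.matrix_mul continuous_const).matrix_mul h.contP').add
    (((((continuous_of_data h).matrix_conjTranspose.matrix_mul continuous_const).matrix_mul
      (continuous_const.sub ((continuous_VD hd h hD).const_smul (1 + κ)))).matrix_mul
        continuous_const).matrix_mul (continuous_of_data h))

lemma trialR_trace_le (hd : 0 < d) (hD : D.PosSemidef) (hW : ∀ x, (W x).PosSemidef) {κ : ℝ} (hκ : 0 ≤ κ)
    (x : ℝ) :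
    (trialR η δ d κ E P P' W D x).trace.re ≤ traceWith D (P' x * (P' x)ᴴ) +
      traceWith (msqrt D * ED η δ E D * msqrt D) (P x * (P x)ᴴ) -
        (1 + κ) * traceWith D (P x * W x * (P x)ᴴ) + (1 + κ) * d * (W x).trace.re := by
  have h1 := trace_VD (P := P) hd hD hW x
  have e1 : ((P' x)ᴴ * D * P' x).trace = (D * (P' x * (P' x)ᴴ)).trace := by
    rw [Matrix.trace_mul_cycle, Matrix.trace_mul_comm]
  have e2 : ((P x)ᴴ * msqrt D * ED η δ E D * msqrt D * P x).trace =
      (msqrt D * ED η δ E D * msqrt D * (P x * (P x)ᴴ)).trace := by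
    rw [Matrix.trace_mul_comm _ (P x * (P x)ᴴ)]
    simp only [Matrix.mul_assoc]
    rw [Matrix.trace_mul_comm (P x) _]
    simp only [Matrix.mul_assoc]
  have e3 : (D * (P x * W x * (P x)ᴴ)).trace = (W x * rhoD P D x).trace := by
    rw [rhoD, Matrix.trace_mul_comm, Matrix.mul_assoc (P x), Matrix.mul_assoc (P x),
      Matrix.trace_mul_comm (P x)]
    simp only [Matrix.mul_assoc]
  show _ ≤ (D * _).trace.re + (msqrt D * ED η δ E D * msqrt D * _).trace.re - (1 + κ) * (D * _).trace.re + _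
  rw [← e1, ← e2, e3]
  simp only [trialR, Matrix.mul_sub, Matrix.sub_mul, Matrix.trace_add,
    Matrix.trace_sub, Matrix.trace_smul, Complex.add_re, Complex.sub_re, Complex.smul_re, smul_eq_mul,
    Matrix.smul_mul, Matrix.mul_smul]
  have := mul_le_mul_of_nonneg_left h1 (show 0 ≤ 1 + κ by linarith)
  linarith

lemma integral_traceWith {G : ℝ → Matrix n n ℂ} (hG : Continuous G) (X : Matrix n n ℂ) (a b : ℝ) :
    ∫ x in a..b, traceWith X (G x) = traceWith X (∫ x in a..b, G x) :=
  (traceWith X).intervalIntegral_comp_comm (hG.intervalIntegrable _ _)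

lemma trial_bound (hη : 0 < η) (hδ : 0 < δ) (h : Data E P P' W L)
    (hD : D ∈ (Dens : Set (Matrix n n ℂ))) {κ c : ℝ} (hκ : 0 ≤ κ)
    (hcE : (E - (c : ℂ) • 1).PosSemidef) :
    (∫ x in (-L)..L, traceWith D (P' x * (P' x)ᴴ)) +
      (∫ x in (-L)..L, traceWith (msqrt D * ED η δ E D * msqrt D) (P x * (P x)ᴴ)) -
        (1 + κ) * (∫ x in (-L)..L, traceWith D (P x * W x * (P x)ᴴ)) ≤
      η * ‖E‖ + pen η E * (Fintype.card n : ℝ) * δ - κ * c := by
  have hP := continuous_of_data h
  have hT : Continuous fun x => P' x * (P' x)ᴴ := h.contP'.matrix_mul h.contP'.matrix_conjTranspose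
  have hO : Continuous fun x => P x * (P x)ᴴ := hP.matrix_mul hP.matrix_conjTranspose
  have hB : Continuous fun x => P x * W x * (P x)ᴴ :=
    (hP.matrix_mul h.contW).matrix_mul hP.matrix_conjTranspose
  have hT0 : 0 ≤ ∫ x in (-L)..L, traceWith D (P' x * (P' x)ᴴ) :=
    intervalIntegral.integral_nonneg (by linarith [h.pos]) fun x _ =>
      Link.trace_mul_re_nonneg hD.1 (posSemidef_self_mul_conjTranspose _)
  have hE : traceWith D E = (∫ x in (-L)..L, traceWith D (P x * W x * (P x)ᴴ)) -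
      ∫ x in (-L)..L, traceWith D (P' x * (P' x)ᴴ) := by
    rw [integral_traceWith hB, integral_traceWith hT, ← map_sub, ← h.form]
  have hE' : traceWith D E = (D * E).trace.re := rfl
  have hone : ∫ x in (-L)..L, traceWith (msqrt D * ED η δ E D * msqrt D) (P x * (P x)ᴴ) =
      (D * ED η δ E D).trace.re := by
    rw [integral_traceWith hO, h.orth]
    show ((msqrt D * ED η δ E D * msqrt D) * 1).trace.re = _
    rw [Matrix.mul_one, Matrix.trace_mul_cycle, msqrt_mul_self hD.1]
  have hED := trace_D_ED_le hη hδ h.posE hD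
  have hlo := Link.trace_mul_re_nonneg hD.1 hcE
  have hup := Link.trace_mul_re_nonneg hD.1 (smul_one_sub_self h.posE.1)
  simp only [Matrix.mul_sub, mul_smul_comm, Matrix.trace_sub, Matrix.trace_smul,
    Complex.sub_re, smul_eq_mul, Complex.re_ofReal_mul, Complex.smul_re, hD.2, mul_one] at hlo hup
  rw [hone]
  nlinarith [mul_le_mul_of_nonneg_left hup hη.le, mul_le_mul_of_nonneg_left hlo hκ, mul_nonneg hκ hT0]

lemma integral_trialR_neg (hη : 0 < η) (hδ : 0 < δ) (hd : 0 < d) (h : Data E P P' W L)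
    (hD : D ∈ (Dens : Set (Matrix n n ℂ))) {κ c : ℝ} (hκ : 0 ≤ κ)
    (hcE : (E - (c : ℂ) • 1).PosSemidef)
    (hsmall : η * ‖E‖ + pen η E * (Fintype.card n : ℝ) * δ +
      (1 + κ) * d * (∫ x in (-L)..L, (W x).trace.re) < κ * c) :
    ∫ x in (-L)..L, (trialR η δ d κ E P P' W D x).trace.re < 0 := by
  have hP := continuous_of_data h
  have hi := fun {f : ℝ → ℝ} (hf : Continuous f) => hf.intervalIntegrable (μ := volume) (-L) L
  have h1 : Continuous fun x => traceWith D (P' x * (P' x)ᴴ) :=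
    (traceWith D).continuous.comp (h.contP'.matrix_mul h.contP'.matrix_conjTranspose)
  have h2 : Continuous fun x => traceWith (msqrt D * ED η δ E D * msqrt D) (P x * (P x)ᴴ) :=
    (traceWith _).continuous.comp (hP.matrix_mul hP.matrix_conjTranspose)
  have h3 : Continuous fun x => (1 + κ) * traceWith D (P x * W x * (P x)ᴴ) :=
    continuous_const.mul ((traceWith D).continuous.comp
      ((hP.matrix_mul h.contW).matrix_mul hP.matrix_conjTranspose))
  have h4 : Continuous fun x => (1 + κ) * d * (W x).trace.re :=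
    continuous_const.mul (Complex.continuous_re.comp h.contW.matrix_trace)
  have hR : Continuous fun x => (trialR η δ d κ E P P' W D x).trace.re :=
    Complex.continuous_re.comp (continuous_trialR hd h hD κ).matrix_trace
  have h12 : Continuous fun x => traceWith D (P' x * (P' x)ᴴ) +
      traceWith (msqrt D * ED η δ E D * msqrt D) (P x * (P x)ᴴ) := h1.add h2
  have h123 : Continuous fun x => traceWith D (P' x * (P' x)ᴴ) +
      traceWith (msqrt D * ED η δ E D * msqrt D) (P x * (P x)ᴴ) -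
        (1 + κ) * traceWith D (P x * W x * (P x)ᴴ) := h12.sub h3
  have h1234 : Continuous fun x => traceWith D (P' x * (P' x)ᴴ) +
      traceWith (msqrt D * ED η δ E D * msqrt D) (P x * (P x)ᴴ) -
        (1 + κ) * traceWith D (P x * W x * (P x)ᴴ) + (1 + κ) * d * (W x).trace.re := h123.add h4
  refine lt_of_le_of_lt (intervalIntegral.integral_mono_on (by linarith [h.pos]) (hi hR)
    (hi h1234) fun x _ => trialR_trace_le hd hD.1 h.psdW hκ x) ?_
  rw [intervalIntegral.integral_add (hi h123) (hi h4),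
    intervalIntegral.integral_sub (hi h12) (hi h3), intervalIntegral.integral_add (hi h1) (hi h2),
    intervalIntegral.integral_const_mul, intervalIntegral.integral_const_mul]
  linarith [trial_bound hη hδ h hD hκ hcE]

/-- The trial columns `√D P` lie below every threshold slightly above one. -/
theorem exists_trial (hη : 0 < η) (hδ : 0 < δ) (hd : 0 < d) (h : Data E P P' W L)
    (hD : D ∈ (Dens : Set (Matrix n n ℂ))) {κ c : ℝ} (hκ : 0 ≤ κ) (hc : 0 ≤ c)
    (hcE : (E - (c : ℂ) • 1).PosSemidef)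
    (hsmall : η * ‖E‖ + pen η E * (Fintype.card n : ℝ) * δ +
      (1 + κ) * d * (∫ x in (-L)..L, (W x).trace.re) < κ * c) :
    ∃ f f' : ℝ → Matrix n n ℂ, (∀ x, HasDerivAt f (f' x) x) ∧ Continuous f' ∧ f (-L) = 0 ∧ f L = 0 ∧
      formI (ED η δ E D) (fun x => (1 + κ) • VD d P W D x) L f f' < 0 := by
  obtain ⟨i₀⟩ : Nonempty n := by
    by_contra hn
    have := hD.2
    simp [Matrix.trace, not_nonempty_iff.1 hn] at this
  have hneg' := integral_trialR_neg hη hδ hd h hD hκ hcE hsmall
  have hj : ∀ j, Continuous fun x => (trialR η δ d κ E P P' W D x j j).re := fun j =>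
    Complex.continuous_re.comp ((continuous_trialR hd h hD κ).matrix_elem j j)
  simp only [Matrix.trace, Matrix.diag, Complex.re_sum] at hneg'
  rw [intervalIntegral.integral_finsetSum fun j _ => (hj j).intervalIntegrable _ _] at hneg'
  obtain ⟨j, -, hneg⟩ := Finset.exists_lt_of_sum_lt
    (hneg'.trans_eq (Finset.sum_const_zero (s := (Finset.univ : Finset m))).symm)
  set S : Matrix m n ℂ := Matrix.single j i₀ 1
  refine ⟨fun x => msqrt D * P x * S, fun x => msqrt D * P' x * S,
    fun x => (sandwich (msqrt D) S).hasFDerivAt.comp_hasDerivAt x (h.derivP x),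
    (continuous_const.matrix_mul h.contP').matrix_mul continuous_const, by simp [h.endL], by simp [h.endR],
    ?_⟩
  refine lt_of_eq_of_lt (intervalIntegral.integral_congr fun x _ => ?_) hneg
  have hS : ∀ X : Matrix m m ℂ, (Sᴴ * X * S).trace = X j j := fun X => by
    rw [Matrix.trace_mul_cycle, Matrix.conjTranspose_single, star_one, Matrix.single_mul_single_same,
      one_mul, Matrix.trace_single_mul, one_smul]
  show _ + _ = _
  rw [← hS (trialR η δ d κ E P P' W D x), ← Complex.add_re]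
  congr 1
  simp only [trialR, Matrix.mul_add, Matrix.add_mul, Matrix.trace_add, conjTranspose_mul, conjTranspose_msqrt,
    Matrix.mul_assoc]
  rw [← Matrix.mul_assoc (msqrt D) (msqrt D) (P' x * S), msqrt_mul_self hD.1]

end Vale.Agent.P371.Thr
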