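import Vale.Agent.P371.Thr.Defs
import Vale.Agent.P371.Link.Brouwer
import Mathlib.Analysis.InnerProductSpace.Projection.Minimal
import Mathlib.Analysis.InnerProductSpace.EuclideanDist

/-!
P371, threshold method T4: a fixed point on the density matrices (seat helper25). A continuous
self-map of a nonempty compact convex set in a finite-dimensional space has a fixed point; on the
density matrices this gives a zero of a singular mismatch.
-/

namespace Vale.Agent.P371.Thr

open Set Filter Topology Metric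
open scoped RealInnerProductSpace

section Inner

variable {H : Type*} [NormedAddCommGroup H] [InnerProductSpace ℝ H] {C : Set H}

/-- The nearest point map onto a complete convex set is a nonexpansive retraction. -/
theorem exists_retraction (hne : C.Nonempty) (hC : IsComplete C) (hconv : Convex ℝ C) :
    ∃ r : H → H, Continuous r ∧ (∀ x, r x ∈ C) ∧ ∀ x ∈ C, r x = x := by
  choose r hr hmin using fun x => exists_norm_eq_iInf_of_complete_convex hne hC hconv x
  have hin : ∀ x, ∀ w ∈ C, ⟪x - r x, w - r x⟫ ≤ 0 := fun x =>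
    (norm_eq_iInf_iff_real_inner_le_zero hconv (hr x)).1 (hmin x)
  have key : ∀ x y, ‖r x - r y‖ ≤ ‖x - y‖ := fun x y => by
    have h1 := hin x (r y) (hr y)
    have h2 := hin y (r x) (hr x)
    have h3 := real_inner_le_norm (x - y) (r x - r y)
    have h4 := real_inner_self_eq_norm_sq (r x - r y)
    simp only [inner_sub_left, inner_sub_right] at h1 h2 h3 h4
    nlinarith [norm_nonneg (r x - r y), norm_nonneg (x - y), real_inner_comm (r x) (r y)]
  refine ⟨r, (LipschitzWith.of_dist_le_mul (K := 1) fun x y => ?_).continuous, hr, fun x hx => ?_⟩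
  · simpa [dist_eq_norm] using key x y
  · have h := hin x x hx
    rw [real_inner_self_eq_norm_sq] at h
    have : ‖x - r x‖ = 0 := by nlinarith [norm_nonneg (x - r x)]
    exact (sub_eq_zero.1 (norm_eq_zero.1 this)).symm

variable [FiniteDimensional ℝ H]

theorem exists_fixedPoint_inner (hC : IsCompact C) (hconv : Convex ℝ C) (hne : C.Nonempty) {f : H → H}
    (hf : ContinuousOn f C) (hm : MapsTo f C C) : ∃ x ∈ C, f x = x := by
  obtain ⟨r, hrc, hr, hfix⟩ := exists_retraction hne hC.isComplete hconv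
  obtain ⟨R, hR⟩ := hC.isBounded.subset_closedBall (0 : H)
  have hR' : ∀ x, ‖f (r x)‖ ≤ R := fun x => mem_closedBall_zero_iff.1 (hR (hm (hr x)))
  set χ : H → ℝ := fun x => max 0 (min 1 (R + 1 - ‖x‖))
  have hχc : Continuous χ := continuous_const.max (continuous_const.min (continuous_const.sub continuous_norm))
  have hg : Continuous fun x => -(χ x • f (r x)) :=
    (hχc.smul (hf.comp_continuous hrc hr)).neg
  have hs : HasCompactSupport fun x => -(χ x • f (r x)) := by
    refine HasCompactSupport.intro (isCompact_closedBall (0 : H) (R + 1)) fun x hx => ?_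
    rw [mem_closedBall_zero_iff, not_le] at hx
    have : χ x = 0 := max_eq_left ((min_le_right _ _).trans (by linarith))
    rw [this, zero_smul, neg_zero]
  obtain ⟨x, hx⟩ := Link.exists_preimage hg hs 0
  rw [← sub_eq_add_neg, sub_eq_zero] at hx
  have hχ : χ x = 1 := by
    have h0 : 0 ≤ χ x := le_max_left _ _
    have h1 : χ x ≤ 1 := max_le zero_le_one (min_le_left _ _)
    have hn : ‖x‖ ≤ R := by
      conv_lhs => rw [hx]
      rw [norm_smul, Real.norm_of_nonneg h0]
      nlinarith [hR' x, norm_nonneg (f (r x))]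
    simp only [χ]
    rw [min_eq_left (by linarith), max_eq_right zero_le_one]
  rw [hχ, one_smul] at hx
  have hxC : x ∈ C := hx ▸ hm (hr x)
  exact ⟨x, hxC, by rw [hfix x hxC] at hx; exact hx.symm⟩

end Inner

/-- Brouwer: a continuous self-map of a nonempty compact convex set has a fixed point. -/
theorem exists_fixedPoint {E : Type*} [NormedAddCommGroup E] [NormedSpace ℝ E] [FiniteDimensional ℝ E]
    {C : Set E} (hC : IsCompact C) (hconv : Convex ℝ C) (hne : C.Nonempty) {f : E → E}
    (hf : ContinuousOn f C) (hm : MapsTo f C C) : ∃ x ∈ C, f x = x := by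
  set e := toEuclidean (E := E)
  have hm' : MapsTo e.symm (e '' C) C := by
    rintro _ ⟨x, hx, rfl⟩
    simpa using hx
  obtain ⟨y, hy, hfy⟩ := exists_fixedPoint_inner (hC.image e.continuous)
    (hconv.linear_image e.toLinearMap) (hne.image e) (f := fun y => e (f (e.symm y)))
    (e.continuous.comp_continuousOn (hf.comp e.symm.continuous.continuousOn hm'))
    (fun y hy => mem_image_of_mem e (hm (hm' hy)))
  exact ⟨e.symm y, hm' hy, by rw [e.eq_symm_apply]; exact hfy⟩

section Dens

open _root_.Matrix Complex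
open scoped ComplexOrder MatrixOrder Matrix.Norms.L2Operator

variable {n : Type} [Fintype n] [DecidableEq n]

omit [DecidableEq n] in
lemma isClosed_dens : IsClosed (Dens : Set (Matrix n n ℂ)) := by
  classical
  refine IsSeqClosed.isClosed fun x D hx hl => ⟨Pencil.posSemidef_of_tendsto (fun k => (hx k).1) hl, ?_⟩
  exact tendsto_nhds_unique
    (((Complex.continuous_re.comp continuous_id.matrix_trace).tendsto D).comp hl)
    (by simp [Function.comp_def, fun k => (hx k).2])

lemma norm_le_one_of_mem_dens {D : Matrix n n ℂ} (hD : D ∈ (Dens : Set (Matrix n n ℂ))) : ‖D‖ ≤ 1 := by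
  refine (CStarAlgebra.norm_le_iff_le_algebraMap D zero_le_one hD.1.nonneg).2 ?_
  rw [map_one, Matrix.le_iff]
  set U : Matrix n n ℂ := hD.1.1.eigenvectorUnitary.1
  set l := hD.1.1.eigenvalues
  have hU : U * Uᴴ = 1 := Unitary.coe_mul_star_self _
  have hsp : D = U * diagonal (fun i => (l i : ℂ)) * Uᴴ := hD.1.1.spectral_theorem
  have hl : ∀ i, l i ≤ 1 := fun i => by
    have h : D.trace.re = ∑ j, l j := by simp [hD.1.1.trace_eq_sum_eigenvalues, l]
    rw [hD.2] at h
    rw [h]
    exact Finset.single_le_sum (fun j _ => hD.1.eigenvalues_nonneg j) (Finset.mem_univ i)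
  have e : 1 - D = U * diagonal (fun i => ((1 - l i : ℝ) : ℂ)) * Uᴴ := by
    have e1 : diagonal (fun i => ((1 - l i : ℝ) : ℂ)) = 1 - diagonal (fun i => (l i : ℂ)) := by
      rw [← diagonal_one, diagonal_sub]
      congr 1
      funext i
      simp
    rw [e1, Matrix.mul_sub, Matrix.sub_mul, mul_one, hU, ← hsp]
  rw [e]
  exact (posSemidef_diagonal_iff.2 fun i =>
    Complex.zero_le_real.2 (sub_nonneg.2 (hl i))).mul_mul_conjTranspose_same U

/-- The density matrices are compact. -/
theorem isCompact_dens : IsCompact (Dens : Set (Matrix n n ℂ)) := by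
  have : ProperSpace (Matrix n n ℂ) := FiniteDimensional.proper ℝ _
  refine (isCompact_closedBall (0 : Matrix n n ℂ) 1).of_isClosed_subset isClosed_dens fun D hD => ?_
  rw [mem_closedBall_zero_iff]
  exact norm_le_one_of_mem_dens hD

omit [DecidableEq n] in
lemma convex_dens : Convex ℝ (Dens : Set (Matrix n n ℂ)) := by
  intro P hP Q hQ a b ha hb hab
  refine ⟨(hP.1.smul ha).add (hQ.1.smul hb), ?_⟩
  simp [Matrix.trace_add, Matrix.trace_smul, hP.2, hQ.2, hab]

lemma dens_nonempty [Nonempty n] : (Dens : Set (Matrix n n ℂ)).Nonempty := by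
  refine ⟨((Fintype.card n : ℝ)⁻¹) • (1 : Matrix n n ℂ),
    Matrix.PosSemidef.one.smul (inv_nonneg.2 (Nat.cast_nonneg _)), ?_⟩
  simp [Matrix.trace_smul]

/-- Brouwer on the density matrices. -/
theorem exists_fixed [Nonempty n] {g : Matrix n n ℂ → Matrix n n ℂ}
    (hg : ContinuousOn g (Dens : Set (Matrix n n ℂ))) (hm : MapsTo g Dens (Dens : Set (Matrix n n ℂ))) :
    ∃ D ∈ (Dens : Set (Matrix n n ℂ)), g D = D := by
  have hfin : FiniteDimensional ℝ (Matrix n n ℂ) := inferInstance
  exact exists_fixedPoint (E := Matrix n n ℂ) (C := Dens) isCompact_dens convex_dens dens_nonempty (f := g) hg hm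

/-- A continuous mismatch which is singular, and injective on the kernel of the weight, vanishes
somewhere. -/
theorem exists_zero [Nonempty n] {Δ : Matrix n n ℂ → Matrix n n ℂ}
    (hc : ContinuousOn Δ (Dens : Set (Matrix n n ℂ))) (hp : ∀ D ∈ (Dens : Set (Matrix n n ℂ)),
      (Δ D).PosSemidef ∧ ¬ (Δ D).PosDef)
    (hk : ∀ D ∈ (Dens : Set (Matrix n n ℂ)), ∀ v : n → ℂ, D *ᵥ v = 0 → Δ D *ᵥ v = 0 → v = 0) :
    ∃ D ∈ (Dens : Set (Matrix n n ℂ)), Δ D = 0 := by
  by_contra hne
  push Not at hne
  have hpos : ∀ D ∈ (Dens : Set (Matrix n n ℂ)), 0 < (Δ D).trace.re := fun D hD => by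
    refine lt_of_le_of_ne (Complex.nonneg_iff.1 (hp D hD).1.trace_nonneg).1 fun h => hne D hD ?_
    exact (hp D hD).1.trace_eq_zero_iff.1
      (Complex.ext h.symm (Complex.nonneg_iff.1 (hp D hD).1.trace_nonneg).2.symm)
  obtain ⟨D, hD, hfix⟩ := exists_fixed (g := fun D => ((Δ D).trace.re)⁻¹ • Δ D)
    ((((Complex.continuous_re.comp continuous_id.matrix_trace).comp_continuousOn hc).inv₀
      fun D hD => (hpos D hD).ne').smul hc)
    (fun D hD => ⟨(hp D hD).1.smul (inv_nonneg.2 (hpos D hD).le), by
      simp [Matrix.trace_smul, inv_mul_cancel₀ (hpos D hD).ne']⟩)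
  obtain ⟨v, hv0, hv⟩ : ∃ v ≠ (0 : n → ℂ), Δ D *ᵥ v = 0 := by
    refine Matrix.exists_mulVec_eq_zero_iff.2 ?_
    by_contra hdet
    exact (hp D hD).2 ((hp D hD).1.posDef_iff_det_ne_zero.2 hdet)
  refine hv0 (hk D hD v ?_ hv)
  rw [← hfix, Matrix.smul_mulVec, hv, smul_zero]

end Dens

end Vale.Agent.P371.Thr
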