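import Vale.Agent.P371.Thr.Threshold
import Vale.Agent.P371.Thr.Family
import Vale.Agent.P371.Thr.Fixed
import Vale.Agent.P371.Link.Ends

/-!
P371, threshold method: assembly for a continuous potential.
-/

namespace Vale.Agent.P371.Thr

open _root_.Matrix Complex MeasureTheory Set
open scoped ComplexOrder Matrix.Norms.L2Operator

variable {n : Type} [Fintype n] [DecidableEq n] {m : Type} [Fintype m] [DecidableEq m]
  {E : Matrix n n ℂ} {P P' : ℝ → Matrix n m ℂ} {W : ℝ → Matrix m m ℂ} {ν L : ℝ}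

lemma powTr_nonneg' {A : Matrix n n ℂ} (hA : A.PosSemidef) (r : ℝ) : 0 ≤ Link.powTr r A := by
  rw [Link.powTr_eq hA.1]
  exact Finset.sum_nonneg fun i _ => Real.rpow_nonneg (hA.eigenvalues_nonneg i) r

/-- The smallest eigenvalue of a positive definite matrix bounds it below. -/
lemma exists_lower [Nonempty n] (hE : E.PosDef) : ∃ c : ℝ, 0 < c ∧ (E - (c : ℂ) • 1).PosSemidef := by
  obtain ⟨i₀, -, h⟩ := Finset.exists_min_image Finset.univ hE.1.eigenvalues Finset.univ_nonempty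
  refine ⟨hE.1.eigenvalues i₀, hE.eigenvalues_pos i₀, ?_⟩
  set U : Matrix n n ℂ := (hE.1.eigenvectorUnitary : Matrix n n ℂ)
  set c := hE.1.eigenvalues i₀
  have hU : U * Uᴴ = 1 := Unitary.coe_mul_star_self hE.1.eigenvectorUnitary
  have e : E = U * diagonal (fun i => (hE.1.eigenvalues i : ℂ)) * Uᴴ := by
    conv_lhs => rw [hE.1.spectral_theorem]
    rfl
  have e1 : E - (c : ℂ) • 1 = U * diagonal (fun i => ((hE.1.eigenvalues i - c : ℝ) : ℂ)) * Uᴴ := by
    have ec : (c : ℂ) • (1 : Matrix n n ℂ) = U * diagonal (fun _ : n => (c : ℂ)) * Uᴴ := by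
      rw [show (diagonal fun _ : n => (c : ℂ)) = (c : ℂ) • 1 from Matrix.ext fun i j => by
          by_cases hij : i = j
          · subst hij; simp
          · simp [hij],
        Matrix.mul_smul, mul_one, Matrix.smul_mul, hU]
    conv_lhs => rw [ec, e]
    rw [← Matrix.sub_mul, ← Matrix.mul_sub, diagonal_sub]
    congr 2
    funext i
    push_cast
    rfl
  rw [e1]
  refine (Matrix.PosSemidef.diagonal fun i => ?_).mul_mul_conjTranspose_same U
  exact Complex.zero_le_real.2 (sub_nonneg.2 (h i (Finset.mem_univ i)))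

/-- Parameters making the trial energy negative. -/
lemma exists_params {κ c : ℝ} (hκ : 0 < κ) (hc : 0 < c) (J : ℝ) :
    ∃ η δ d : ℝ, 0 < η ∧ 0 < δ ∧ 0 < d ∧ 0 ≤ pen η E ∧
      η * ‖E‖ + pen η E * (Fintype.card n : ℝ) * δ + (1 + κ) * d * J < κ * c := by
  have hp : ∀ η : ℝ, 0 < η → 0 ≤ pen η E := fun η hη => mul_nonneg (by positivity) (norm_nonneg E)
  obtain ⟨η, hη, e1⟩ : ∃ η : ℝ, 0 < η ∧ η * (3 * (‖E‖ + 1)) = κ * c :=
    ⟨κ * c / (3 * (‖E‖ + 1)), by positivity, by field_simp⟩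
  have hpen := hp η hη
  obtain ⟨δ, hδ, e2⟩ : ∃ δ : ℝ, 0 < δ ∧ δ * (3 * (pen η E * (Fintype.card n : ℝ) + 1)) = κ * c :=
    ⟨κ * c / (3 * (pen η E * (Fintype.card n : ℝ) + 1)), by positivity, by field_simp⟩
  obtain ⟨d, hd, e3⟩ : ∃ d : ℝ, 0 < d ∧ d * (3 * ((1 + κ) * |J| + 1)) = κ * c :=
    ⟨κ * c / (3 * ((1 + κ) * |J| + 1)), by positivity, by field_simp⟩
  have e4 : (1 + κ) * d * J ≤ (1 + κ) * d * |J| :=
    mul_le_mul_of_nonneg_left (le_abs_self _) (by positivity)
  exact ⟨η, δ, d, hη, hδ, hd, hpen, by linarith⟩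

/-- The threshold along the family of density matrices. -/
lemma exists_mismatch [Nonempty n] {η δ d κ c : ℝ} (hη : 0 < η) (hδ : 0 < δ) (hd : 0 < d)
    (h : Data E P P' W L) (hκ : 0 ≤ κ) (hc : 0 ≤ c) (hcE : (E - (c : ℂ) • 1).PosSemidef)
    (hsmall : η * ‖E‖ + pen η E * (Fintype.card n : ℝ) * δ +
      (1 + κ) * d * (∫ x in (-L)..L, (W x).trace.re) < κ * c) :
    ∃ (θ : ↥(Dens (n := n)) → ℝ) (Δ : ↥(Dens (n := n)) → Matrix n n ℂ)
      (B : ↥(Dens (n := n)) → ℝ → Matrix n n ℂ), Continuous Δ ∧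
      ∀ s, θ s ∈ Icc 0 (1 + κ) ∧ (Δ s).PosSemidef ∧ ¬ (Δ s).PosDef ∧
        Ric (ED η δ E s.1) (fun x => θ s • VD d P W s.1 x) L (B s) ∧
        B s L = msqrt (ED η δ E s.1) - Δ s := by
  have hcomp : CompactSpace ↥(Dens (n := n)) := isCompact_iff_compactSpace.1 isCompact_dens
  obtain ⟨hcE', hcV⟩ := continuous_family (η := η) (δ := δ) hd h
  have h1 : Continuous fun s : ↥(Dens (n := n)) => ED η δ E s.1 := hcE'.domRestrict
  have h2 : ∀ s : ↥(Dens (n := n)), (ED η δ E s.1).PosDef := fun s =>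
    (ED_spec hη hδ h.posE s.2).2
  have h3 : Continuous fun q : ↥(Dens (n := n)) × ℝ => VD d P W q.1.1 q.2 :=
    ContinuousOn.comp_continuous (g := fun q : Matrix n n ℂ × ℝ => VD d P W q.1 q.2)
      (f := fun q : ↥(Dens (n := n)) × ℝ => ((q.1 : Matrix n n ℂ), q.2)) hcV
      ((continuous_subtype_val.comp continuous_fst).prodMk continuous_snd)
      fun q => ⟨q.1.2, mem_univ _⟩
  have h4 : ∀ (s : ↥(Dens (n := n))) (x : ℝ), (VD d P W s.1 x).PosSemidef := fun s x =>
    (VD_spec hd s.2 h.psdW le_rfl x).1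
  have h5 : ∀ s : ↥(Dens (n := n)), ∃ f f' : ℝ → Matrix n n ℂ,
      (∀ x, HasDerivAt f (f' x) x) ∧ Continuous f' ∧ f (-L) = 0 ∧ f L = 0 ∧
      formI (ED η δ E s.1) (fun x => (1 + κ) • VD d P W s.1 x) L f f' < 0 := fun s =>
    exists_trial hη hδ hd h s.2 hκ hc hcE hsmall
  obtain ⟨θ, Δ, B, -, hΔc, hspec⟩ := @exists_threshold n _ _ n _ ↥(Dens (n := n)) _ hcomp _ L (1 + κ)
    h.pos (by linarith) (fun s => ED η δ E s.1) (fun s x => VD d P W s.1 x) h1 h2 h3 h4 h5
  exact ⟨θ, Δ, B, hΔc, hspec⟩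

/-- The bound with an arbitrarily small loss. -/
lemma core_approx [Nonempty n] (hν : 0 < ν) (hν1 : ν < 1) (h : Data E P P' W L) {κ : ℝ} (hκ : 0 < κ) :
    2 * Link.endC ν * Link.powTr (ν + 1 / 2) E ≤ ν ^ ν / (ν + 1) ^ (ν + 1) *
      ((1 + κ) ^ (1 + ν) * ∫ x in (-L)..L, Link.powTr (1 + ν) (W x)) := by
  obtain ⟨c, hc, hcE⟩ := exists_lower h.posE
  obtain ⟨η, δ, d, hη, hδ, hd, hpen, hsmall⟩ :=
    exists_params (E := E) hκ hc (∫ x in (-L)..L, (W x).trace.re)
  obtain ⟨-, hcV⟩ := continuous_family (η := η) (δ := δ) hd h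
  obtain ⟨θ, Δ, B, hΔc, hspec⟩ := exists_mismatch hη hδ hd h hκ.le hc.le hcE hsmall
  classical
  set Δ' : Matrix n n ℂ → Matrix n n ℂ := fun D => if hD : D ∈ (Dens : Set (Matrix n n ℂ)) then Δ ⟨D, hD⟩ else 0
  have hrestr : (fun s : ↥(Dens (n := n)) => Δ' s.1) = Δ := by
    funext s
    simp only [Δ', dif_pos s.2, Subtype.coe_eta]
  have hΔ' : ContinuousOn Δ' (Dens : Set (Matrix n n ℂ)) := by
    rw [continuousOn_iff_continuous_domRestrict]
    exact hΔc.congr fun s => (congrFun hrestr s).symm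
  have hE0 : E ≠ 0 := fun e => by
    obtain ⟨i⟩ := ‹Nonempty n›
    have := h.posE.eigenvalues_pos i
    simp [(h.posE.1.eigenvalues_eq_zero_iff).2 e] at this
  have hM : 0 < pen η E := mul_pos (by positivity) (norm_pos_iff.2 hE0)
  obtain ⟨D, hD, hzero⟩ := exists_zero hΔ'
    (fun D hD => by
      simp only [Δ', dif_pos hD]
      exact ⟨(hspec ⟨D, hD⟩).2.1, (hspec ⟨D, hD⟩).2.2.1⟩)
    (fun D hD v hDv hΔv => by
      simp only [Δ', dif_pos hD] at hΔv
      obtain ⟨-, -, -, hR, hL⟩ := hspec ⟨D, hD⟩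
      obtain ⟨k1, k2⟩ := kernel_spec (P := P) (W := W) (d := d) hη hδ h.posE hD hDv
      have hb := ric_block h.pos hpen (ED_spec hη hδ h.posE hD).2.posSemidef hR k1
        (fun x _ => by rw [Matrix.smul_mulVec, k2 x, smul_zero])
      rw [hL, sub_sub_cancel, hΔv] at hb
      refine (smul_eq_zero.1 hb.symm).resolve_left ?_
      exact_mod_cast (mul_pos two_pos (Real.sqrt_pos.2 hM)).ne')
  simp only [Δ', dif_pos hD] at hzero
  obtain ⟨hθ, -, -, hR, hL⟩ := hspec ⟨D, hD⟩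
  rw [hzero, sub_zero] at hL
  set t := θ ⟨D, hD⟩
  have hVp : ∀ x, (VD d P W D x).PosSemidef ∧
      Link.powTr (1 + ν) (VD d P W D x) ≤ Link.powTr (1 + ν) (W x) := fun x =>
    VD_spec hd hD h.psdW (by linarith) x
  have hVc : ContinuousOn (fun x => t • VD d P W D x) (Icc (-L) L) :=
    ((hcV.comp_continuous (continuous_const.prodMk continuous_id) fun x => ⟨hD, mem_univ _⟩).const_smul t).continuousOn
  have hts : ∀ x, (t • VD d P W D x).PosSemidef := fun x => by
    rw [← Complex.coe_smul]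
    exact (hVp x).1.smul (Complex.zero_le_real.2 hθ.1)
  have hb := ric_bound hν hν1 h.pos (ED_spec hη hδ h.posE hD).2 hVc (fun x _ => hts x) hR hL
  have hle : -L ≤ L := by linarith [h.pos]
  have ha : 0 ≤ ν ^ ν / (ν + 1) ^ (ν + 1) := by positivity
  calc 2 * Link.endC ν * Link.powTr (ν + 1 / 2) E
      ≤ 2 * Link.endC ν * Link.powTr (ν + 1 / 2) (ED η δ E D) := mul_le_mul_of_nonneg_left
        (powTr_mono (by linarith) h.posE.posSemidef (ED_spec hη hδ h.posE hD).1)
        (mul_nonneg two_pos.le (Link.endC_pos hν.le).le)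
    _ ≤ _ := hb
    _ ≤ _ := by
      refine mul_le_mul_of_nonneg_left ?_ ha
      rw [← intervalIntegral.integral_const_mul]
      refine intervalIntegral.integral_mono_on hle
        ((Link.continuousOn_powTr isCompact_Icc hVc (fun x _ => (hts x).1) (by linarith)).intervalIntegrable_of_Icc hle)
        (((Link.continuousOn_powTr isCompact_Icc h.contW.continuousOn (fun x _ => (h.psdW x).1)
          (by linarith)).intervalIntegrable_of_Icc hle).const_mul _) fun x _ => ?_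
      rw [Link.powTr_smul (hVp x).1 hθ.1]
      exact mul_le_mul (Real.rpow_le_rpow hθ.1 hθ.2 (by linarith)) (hVp x).2 (powTr_nonneg' (hVp x).1 _)
        (Real.rpow_nonneg (by linarith) _)

/-- The sharp inequality for a continuous potential and a matrix of form values. -/
theorem core_bound (hν : 0 < ν) (hν1 : ν < 1) (h : Data E P P' W L) :
    2 * Link.endC ν * Link.powTr (ν + 1 / 2) E ≤
      ν ^ ν / (ν + 1) ^ (ν + 1) * ∫ x in (-L)..L, Link.powTr (1 + ν) (W x) := by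
  rcases isEmpty_or_nonempty n with hn | hn
  · rw [Link.powTr_eq h.posE.1]
    simp only [Finset.univ_eq_empty, Finset.sum_empty, mul_zero]
    exact mul_nonneg (by positivity) (intervalIntegral.integral_nonneg (by linarith [h.pos])
      fun x _ => powTr_nonneg' (h.psdW x) _)
  set a := ν ^ ν / (ν + 1) ^ (ν + 1)
  set J := ∫ x in (-L)..L, Link.powTr (1 + ν) (W x)
  have hc : Filter.Tendsto (fun κ : ℝ => a * ((1 + κ) ^ (1 + ν) * J)) (nhdsWithin 0 (Ioi 0)) (nhds (a * J)) := by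
    have : Continuous fun κ : ℝ => a * ((1 + κ) ^ (1 + ν) * J) :=
      continuous_const.mul (((continuous_const.add continuous_id).rpow_const fun _ => Or.inr (by linarith)).mul
        continuous_const)
    simpa using (this.tendsto 0).mono_left nhdsWithin_le_nhds
  exact ge_of_tendsto hc (eventually_nhdsWithin_of_forall fun κ hκ => core_approx hν hν1 h hκ)

end Vale.Agent.P371.Thr
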