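import Vale.Agent.P371.Link.Defs

/-!
P371, threshold method (all `1/2 < γ < 3/2`): definitions. `A = √D` runs over the density matrices,
the potential `VD` is the transported one, `ED ≥ E` is penalised on the kernel of `D`, and `Ric` is
the Riccati equation of the threshold problem on an interval.
-/

namespace Vale.Agent.P371.Thr

open _root_.Matrix Complex MeasureTheory Set
open scoped ComplexOrder Matrix.Norms.L2Operator

variable {n : Type} [Fintype n] [DecidableEq n] {m : Type} [Fintype m] [DecidableEq m]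

/-- The square root of a positive semidefinite matrix. -/
noncomputable def msqrt (M : Matrix n n ℂ) : Matrix n n ℂ := cfc Real.sqrt M

/-- The density matrices. -/
def Dens : Set (Matrix n n ℂ) := {D | D.PosSemidef ∧ D.trace.re = 1}

/-- The smoothed projection away from the kernel. -/
noncomputable def cut (δ : ℝ) (D : Matrix n n ℂ) : Matrix n n ℂ := cfc (fun t : ℝ => min 1 (t / δ)) D

/-- The penalty on the kernel. -/
noncomputable def pen (η : ℝ) (E : Matrix n n ℂ) : ℝ := (1 + 1 / η) * ‖E‖

/-- The penalised constant coefficient. -/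
noncomputable def ED (η δ : ℝ) (E D : Matrix n n ℂ) : Matrix n n ℂ :=
  (1 + η) • (cut δ D * E * cut δ D) + pen η E • ((1 - cut δ D) * (1 - cut δ D))

/-- The matrix density of the family `P` with weight `D`. -/
noncomputable def rhoD (P : ℝ → Matrix n m ℂ) (D : Matrix n n ℂ) (x : ℝ) : Matrix m m ℂ :=
  (P x)ᴴ * D * P x

/-- The contraction from the components to the family. -/
noncomputable def frame (d : ℝ) (P : ℝ → Matrix n m ℂ) (D : Matrix n n ℂ) (x : ℝ) : Matrix n m ℂ :=
  msqrt D * P x * cfc (fun t : ℝ => (Real.sqrt (t + d))⁻¹) (rhoD P D x)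

/-- The transported potential. -/
noncomputable def VD (d : ℝ) (P : ℝ → Matrix n m ℂ) (W : ℝ → Matrix m m ℂ) (D : Matrix n n ℂ) (x : ℝ) :
    Matrix n n ℂ :=
  frame d P D x * W x * (frame d P D x)ᴴ

/-- The form of `-d²/dx² + E - V` on columns vanishing at both ends. -/
noncomputable def formI {k : Type} [Fintype k] (E : Matrix n n ℂ) (V : ℝ → Matrix n n ℂ) (L : ℝ)
    (f f' : ℝ → Matrix n k ℂ) : ℝ :=
  ∫ x in (-L)..L, ((f' x)ᴴ * f' x).trace.re + ((f x)ᴴ * (E - V x) * f x).trace.re

/-- A solution of the Riccati equation issued from the decaying state on the left. -/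
structure Ric (E : Matrix n n ℂ) (V : ℝ → Matrix n n ℂ) (L : ℝ) (B : ℝ → Matrix n n ℂ) : Prop where
  herm : ∀ x ∈ Icc (-L) L, (B x).IsHermitian
  deriv : ∀ x ∈ Icc (-L) L, HasDerivWithinAt B (B x * B x - E + V x) (Icc (-L) L) x
  left : B (-L) = -msqrt E

/-- The data of the method: the family and the potential on `[-L, L]`. -/
structure Data (E : Matrix n n ℂ) (P P' : ℝ → Matrix n m ℂ) (W : ℝ → Matrix m m ℂ) (L : ℝ) : Prop where
  pos : 0 < L
  posE : E.PosDef
  derivP : ∀ x, HasDerivAt P (P' x) x
  contP' : Continuous P'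
  endL : P (-L) = 0
  endR : P L = 0
  orth : (∫ x in (-L)..L, P x * (P x)ᴴ) = 1
  contW : Continuous W
  psdW : ∀ x, (W x).PosSemidef
  form : E = (∫ x in (-L)..L, P x * W x * (P x)ᴴ) - ∫ x in (-L)..L, P' x * (P' x)ᴴ

end Vale.Agent.P371.Thr
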