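import Vale.Agent.P371.Thr.Core
import Vale.Agent.P371.Thr.Approx
import Vale.Agent.P371.Link.Ends
import Vale.Agent.P371.Soliton

/-!
P371, threshold method T5: the constant, measurable potentials and optimality.
-/

namespace Vale.Agent.P371.Thr

open _root_.Matrix Complex MeasureTheory Set ComplexConjugate
open scoped ComplexOrder Matrix.Norms.L2Operator
open Vale.Agent.P371.Left (gram dfam)

/-- The one-bound-state constant. -/
noncomputable def lt1 (γ : ℝ) : ℝ :=
  2 * ((γ - 1 / 2) / (γ + 1 / 2)) ^ (γ - 1 / 2) *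
    (Real.Gamma (γ + 1) / (2 * Real.sqrt Real.pi * Real.Gamma (γ + 3 / 2)))

/-- The end constant gives the one-bound-state constant. -/
theorem lt1_eq {γ : ℝ} (h1 : 1 / 2 < γ) (h2 : γ < 3 / 2) :
    (γ - 1 / 2) ^ (γ - 1 / 2) / (γ - 1 / 2 + 1) ^ (γ - 1 / 2 + 1) / (2 * Link.endC (γ - 1 / 2)) =
      lt1 γ := by
  obtain ⟨ν, rfl⟩ : ∃ ν, γ = ν + 1 / 2 := ⟨γ - 1 / 2, by ring⟩
  have hν : 0 < ν := by linarith
  simp only [lt1, add_sub_cancel_right]
  rw [Link.endC_eq hν.le, Real.rpow_add_one (by positivity : ν + 1 ≠ 0),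
    show ν + 1 / 2 + 1 / 2 = ν + 1 by ring, show ν + 1 / 2 + 1 = ν + 3 / 2 by ring,
    show ν + 1 / 2 + 3 / 2 = ν + 1 + 1 by ring, Real.Gamma_add_one (by positivity : ν + 1 ≠ 0),
    Real.div_rpow hν.le (by positivity)]
  have := Real.Gamma_pos_of_pos (show 0 < ν + 1 by linarith)
  have := Real.Gamma_pos_of_pos (show 0 < ν + 3 / 2 by linarith)
  have := Real.rpow_pos_of_pos (show 0 < ν + 1 by linarith) ν
  have := Real.sqrt_pos.2 Real.pi_pos
  field_simp

/-- The matrix of a form on a family supported in an interval, as a matrix integral. -/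
theorem gram_interval {m n : ℕ} {K : ℝ} (hK : 0 < K) {M : ℝ → Matrix (Fin m) (Fin m) ℂ}
    {Q : ℝ → Matrix (Fin n) (Fin m) ℂ} {v : Fin n → ℝ → Fin m → ℂ} (hM : Continuous M)
    (hQ : Continuous Q) (hQv : ∀ x, Q x = Matrix.of fun j a => conj (v j x a))
    (hv : ∀ j a x, K < |x| → v j x a = 0) :
    (∫ x in (-K)..K, Q x * M x * (Q x)ᴴ) = gram M v := by
  ext i j
  have e := ContinuousLinearMap.intervalIntegral_comp_comm
    (LinearMap.toContinuousLinearMap (Matrix.entryLinearMap ℝ ℂ i j :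
      Matrix (Fin n) (Fin n) ℂ →ₗ[ℝ] ℂ))
    (((hQ.matrix_mul hM).matrix_mul hQ.matrix_conjTranspose).intervalIntegrable (μ := volume) (-K) K)
  simp only [LinearMap.coe_toContinuousLinearMap', Matrix.entryLinearMap_apply] at e
  rw [← e, Left.gram, Matrix.of_apply]
  have he : ∀ x, (Q x * M x * (Q x)ᴴ) i j = star (v i x) ⬝ᵥ M x *ᵥ v j x := fun x => by
    rw [dotProduct_mulVec]
    simp [hQv, Matrix.mul_apply, dotProduct, vecMul]
  simp only [he]
  have hc : Continuous fun y => v i y := continuous_pi fun a => by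
    rw [show (fun y => v i y a) = fun y => conj (Q y i a) by funext y; simp [hQv]]
    exact Complex.continuous_conj.comp (hQ.matrix_elem i a)
  refine intervalIntegral.integral_eq_integral_of_support_subset fun x hx => ?_
  by_contra hm
  refine hx ?_
  rcases le_or_gt |x| K with hxK | hxK
  · have hxe : x = -K := le_antisymm
      (le_of_not_gt fun h => hm ⟨h, (abs_le.1 hxK).2⟩) (abs_le.1 hxK).1
    have h00 : v i x = 0 := tendsto_nhds_unique (hc.continuousWithinAt (s := Iio x))
      (tendsto_const_nhds.congr' (eventually_nhdsWithin_of_forall fun y (hy : y < x) =>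
        (funext fun a => (hv i a y (by rw [abs_of_neg (by linarith)]; linarith)).symm)))
    simp [h00]
  · simp [show v j x = 0 from funext fun a => hv j a x hxK]

/-- Power traces of a continuous compactly supported potential are integrable. -/
theorem integrable_powTr {m : ℕ} {W : ℝ → Matrix (Fin m) (Fin m) ℂ} (hWc : Continuous W)
    (hWs : HasCompactSupport W) (hW : ∀ x, (W x).PosSemidef) {r : ℝ} (hr : 0 < r) :
    Integrable fun x => Link.powTr r (W x) := by
  have hc : Continuous fun x => Link.powTr r (W x) := continuous_iff_continuousAt.2 fun x =>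
    (Link.continuousOn_powTr (isCompact_Icc (a := x - 1) (b := x + 1)) hWc.continuousOn
      (fun y _ => (hW y).isHermitian) hr.le).continuousAt (Icc_mem_nhds (by linarith) (by linarith))
  exact hc.integrable_of_hasCompactSupport (HasCompactSupport.intro hWs fun x hx => by
    rw [image_eq_zero_of_notMem_tsupport hx, Link.powTr_zero hr.ne'])

/-- The threshold method gives the inequality for continuous compactly supported potentials. -/
theorem coreBound {γ : ℝ} (h1 : 1 / 2 < γ) (h2 : γ < 3 / 2) (m : ℕ) : CoreBound m γ (lt1 γ) := by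
  intro n W hWc hWs hW u hu hus hL hE
  obtain ⟨K, hK, hout⟩ : ∃ K : ℝ, 0 < K ∧ ∀ j a x, K ≤ |x| → u j x a = 0 := by
    have hcpt : IsCompact (⋃ j, ⋃ a, tsupport fun x => u j x a) :=
      isCompact_iUnion fun j => isCompact_iUnion fun a => hus j a
    obtain ⟨R, hR⟩ := hcpt.isBounded.exists_norm_le
    refine ⟨|R| + 1, by positivity, fun j a x hx => ?_⟩
    refine image_eq_zero_of_notMem_tsupport (f := fun x => u j x a) fun h => ?_
    have := hR x (mem_iUnion.2 ⟨j, mem_iUnion.2 ⟨a, h⟩⟩)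
    rw [Real.norm_eq_abs] at this
    linarith [le_abs_self R]
  have hout' : ∀ j a x, K < |x| → deriv (fun y => u j y a) x = 0 := fun j a x hx => by
    have he : (fun y => u j y a) =ᶠ[nhds x] fun _ => 0 :=
      Filter.eventually_of_mem ((isOpen_lt continuous_const continuous_abs).mem_nhds hx)
        fun y (hy : K < |y|) => hout j a y hy.le
    rw [he.deriv_eq, deriv_const]
  obtain ⟨P, hP⟩ : ∃ P : ℝ → Matrix (Fin n) (Fin m) ℂ,
      P = fun x => Matrix.of fun j a => conj (u j x a) := ⟨_, rfl⟩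
  obtain ⟨P', hP'⟩ : ∃ P' : ℝ → Matrix (Fin n) (Fin m) ℂ,
      P' = fun x => Matrix.of fun j a => conj (deriv (fun y => u j y a) x) := ⟨_, rfl⟩
  have hPc : Continuous P := by
    rw [hP]
    exact continuous_pi fun j => continuous_pi fun a =>
      Complex.continuous_conj.comp (hu j a).continuous
  have hP'c : Continuous P' := by
    rw [hP']
    exact continuous_pi fun j => continuous_pi fun a =>
      Complex.continuous_conj.comp ((hu j a).continuous_deriv le_rfl)
  have hPL : P (-K) = 0 ∧ P K = 0 := by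
    constructor <;> ext j a <;> simp [hP, hout j a, abs_of_pos hK]
  have hone : (∫ x in (-K)..K, P x * (P x)ᴴ) = 1 := by
    rw [← hL, ← gram_interval hK (M := fun _ => 1) (v := u) continuous_const hPc (fun x => by rw [hP])
      fun j a x hx => hout j a x hx.le]
    simp
  have hd : ∀ x, HasDerivAt P (P' x) x := fun x => by
    rw [hP, hP']
    exact hasDerivAt_pi.2 fun j => hasDerivAt_pi.2 fun a =>
      ((hu j a).differentiable one_ne_zero x).hasDerivAt.star
  have hdata : Data (gram W u - gram (fun _ => 1) (dfam u)) P P' W K := by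
    refine ⟨hK, hE, hd, hP'c, hPL.1, hPL.2, hone, hWc, hW, ?_⟩
    rw [← gram_interval hK (M := W) (v := u) hWc hPc (fun x => by rw [hP]) fun j a x hx => hout j a x hx.le,
      ← gram_interval hK (M := fun _ => 1) (v := dfam u) continuous_const hP'c (fun x => by rw [hP']; rfl)
        fun j a x hx => hout' j a x hx]
    simp
  have hν : 0 < γ - 1 / 2 := by linarith
  have h := core_bound hν (by linarith) hdata
  rw [show γ - 1 / 2 + 1 / 2 = γ by ring, show 1 + (γ - 1 / 2) = γ + 1 / 2 by ring] at h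
  have hC : 0 < Link.endC (γ - 1 / 2) := Link.endC_pos hν.le
  have hint : (∫ x in (-K)..K, Link.powTr (γ + 1 / 2) (W x)) ≤
      ∫ x, Link.powTr (γ + 1 / 2) (W x) := by
    rw [intervalIntegral.integral_of_le (by linarith)]
    refine setIntegral_le_integral (integrable_powTr hWc hWs hW (by linarith)) (.of_forall fun x => powTr_nonneg (hW x) _)
  calc Link.powTr γ (gram W u - gram (fun _ => 1) (dfam u))
      ≤ (γ - 1 / 2) ^ (γ - 1 / 2) / (γ - 1 / 2 + 1) ^ (γ - 1 / 2 + 1) *
        (∫ x in (-K)..K, Link.powTr (γ + 1 / 2) (W x)) / (2 * Link.endC (γ - 1 / 2)) := by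
        rw [le_div_iff₀ (by linarith)]
        linarith
    _ = lt1 γ * ∫ x in (-K)..K, Link.powTr (γ + 1 / 2) (W x) := by rw [← lt1_eq h1 h2]; ring
    _ ≤ _ := mul_le_mul_of_nonneg_left hint (by
        rw [← lt1_eq h1 h2]
        exact div_nonneg (div_nonneg (Real.rpow_nonneg hν.le _)
          (Real.rpow_nonneg (by linarith) _)) (by linarith))

/-- The entry `(j, k)` of the form of `-(-d²/dx² - W)` on a family. -/
noncomputable def formM {m N : ℕ} (W : ℝ → Matrix (Fin m) (Fin m) ℂ) (ψ : Fin N → ℝ → Fin m → ℂ)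
    (j k : Fin N) : ℂ :=
  (∫ x, ∑ a, ∑ b, conj (ψ j x a) * W x a b * ψ k x b) -
    ∫ x, ∑ a, conj (deriv (fun y => ψ j y a) x) * deriv (fun y => ψ k y a) x

theorem energyM_eq {m : ℕ} (W : ℝ → Matrix (Fin m) (Fin m) ℂ) (v : ℝ → Fin m → ℂ) :
    Sharp.energyM W v = (∫ x, (∑ a, ∑ b, conj (v x a) * W x a b * v x b).re) -
      ∫ x, ∑ a, ‖deriv (fun y => v y a) x‖ ^ 2 := by
  simp only [Sharp.energyM, dotProduct, Matrix.mulVec, Pi.star_apply, Finset.mul_sum, mul_assoc,
    RCLike.star_def]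

/-- The sharp Lieb–Thirring inequality for every matrix size and every `1/2 < γ < 3/2`. -/
theorem moment_bound {γ : ℝ} (h1 : 1 / 2 < γ) (h2 : γ < 3 / 2) {m : ℕ}
    (W : ℝ → Matrix (Fin m) (Fin m) ℂ) (hW : ∀ x, (W x).PosSemidef)
    (hWm : ∀ a b, Measurable fun x => W x a b)
    (hWi : Integrable fun x => ∑ i, (hW x).isHermitian.eigenvalues i ^ (γ + 1 / 2))
    {N : ℕ} (ψ : Fin N → ℝ → Fin m → ℂ) (hψ : ∀ j a, ContDiff ℝ 1 fun x => ψ j x a)
    (hsupp : ∀ j a, HasCompactSupport fun x => ψ j x a)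
    (horth : ∀ j k, j ≠ k → ∫ x, ∑ a, conj (ψ j x a) * ψ k x a = 0)
    (hnorm : ∀ j, ∫ x, ∑ a, ‖ψ j x a‖ ^ 2 = 1)
    (hdiag : ∀ j k, j ≠ k → formM W ψ j k = 0) :
    ∑ j, max 0 (Sharp.energyM W (ψ j)) ^ γ ≤
      lt1 γ * ∫ x, ∑ i, (hW x).isHermitian.eigenvalues i ^ (γ + 1 / 2) := by
  have e : ∀ j k x, star (ψ j x) ⬝ᵥ Matrix.mulVec (W x) (ψ k x) =
      ∑ a, ∑ b, conj (ψ j x a) * W x a b * ψ k x b := fun j k x => by
    simp only [dotProduct, Matrix.mulVec, Pi.star_apply, Finset.mul_sum, mul_assoc]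
    rfl
  have e1 : ∀ (f : Fin N → ℝ → Fin m → ℂ) j k x,
      star (f j x) ⬝ᵥ Matrix.mulVec (1 : Matrix (Fin m) (Fin m) ℂ) (f k x) =
        ∑ a, conj (f j x a) * f k x a := fun f j k x => by
    simp only [Matrix.one_mulVec, dotProduct, Pi.star_apply]
    rfl
  have e2 : ∀ z : Fin m → ℂ, ∑ a, conj (z a) * z a = ((∑ a, ‖z a‖ ^ 2 : ℝ) : ℂ) := fun z => by
    rw [Complex.ofReal_sum]
    exact Finset.sum_congr rfl fun a _ => by
      rw [mul_comm, Complex.mul_conj, Complex.normSq_eq_norm_sq]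
  have hL : gram (fun _ => 1) ψ = 1 := by
    ext j k
    simp only [Left.gram, Matrix.of_apply, e1, Matrix.one_apply]
    split_ifs with h
    · subst h
      simp only [e2, integral_complex_ofReal, hnorm, Complex.ofReal_one]
    · exact horth j k h
  refine lifting_diag h1 (coreBound h1 h2 m) hW hWm hWi hψ hsupp hL
    (fun j => Sharp.energyM W (ψ j)) ?_
  ext j k
  simp only [Matrix.sub_apply, Left.gram, Matrix.of_apply, e, e1, Left.dfam, Matrix.diagonal_apply]
  split_ifs with h
  · subst h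
    have hre : ∀ x, ∑ a, ∑ b, conj (ψ j x a) * W x a b * ψ j x b =
        (((∑ a, ∑ b, conj (ψ j x a) * W x a b * ψ j x b).re : ℝ) : ℂ) := fun x => by
      obtain ⟨q, hq⟩ : ∃ q, q = ∑ a, ∑ b, conj (ψ j x a) * W x a b * ψ j x b := ⟨_, rfl⟩
      rw [← hq]
      have h0 : 0 ≤ q := hq ▸ e j j x ▸ (hW x).dotProduct_mulVec_nonneg (ψ j x)
      exact Complex.ext (Complex.ofReal_re _).symm
        ((Complex.le_def.1 h0).2.symm.trans (Complex.ofReal_im _).symm)
    simp only [e2]
    rw [integral_congr_ae (.of_forall hre), integral_complex_ofReal, integral_complex_ofReal,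
      ← Complex.ofReal_sub, energyM_eq]
  · exact hdiag j k h

/-- No smaller constant is admissible. -/
theorem sharp_bound {γ : ℝ} (h1 : 1 / 2 < γ) {m : ℕ} (hm : 0 < m) {L : ℝ}
    (hL : ∀ (W : ℝ → Matrix (Fin m) (Fin m) ℂ) (hW : ∀ x, (W x).PosSemidef),
      (∀ a b, Measurable fun x => W x a b) →
      (Integrable fun x => ∑ i, (hW x).isHermitian.eigenvalues i ^ (γ + 1 / 2)) →
      ∀ (N : ℕ) (ψ : Fin N → ℝ → Fin m → ℂ),
      (∀ j a, ContDiff ℝ 1 fun x => ψ j x a) → (∀ j a, HasCompactSupport fun x => ψ j x a) →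
      (∀ j k, j ≠ k → ∫ x, ∑ a, conj (ψ j x a) * ψ k x a = 0) →
      (∀ j, ∫ x, ∑ a, ‖ψ j x a‖ ^ 2 = 1) → (∀ j k, j ≠ k → formM W ψ j k = 0) →
      ∑ j, max 0 (Sharp.energyM W (ψ j)) ^ γ ≤
        L * ∫ x, ∑ i, (hW x).isHermitian.eigenvalues i ^ (γ + 1 / 2)) :
    lt1 γ ≤ L := by
  obtain ⟨i₀⟩ : Nonempty (Fin m) := ⟨⟨0, hm⟩⟩
  refine Soliton.sharp_scalar h1 fun w hwc hw0 hwi v hv1 hv2 hv3 => ?_
  have hW : ∀ x,
      (Matrix.diagonal fun i : Fin m => if i = i₀ then (w x : ℂ) else 0).PosSemidef :=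
    fun x => Matrix.PosSemidef.diagonal fun i => by
      split_ifs
      · exact Complex.zero_le_real.2 (hw0 x)
      · exact le_rfl
  have htr : ∀ x, ∑ i, (hW x).isHermitian.eigenvalues i ^ (γ + 1 / 2) = w x ^ (γ + 1 / 2) :=
    fun x => Soliton.sum_eigenvalues_diag i₀ (f := fun t => t ^ (γ + 1 / 2)) _
      (Real.zero_rpow (by linarith))
  have h := hL _ hW ?_ (by simpa only [htr] using hwi) 1
    (fun _ x a => if a = i₀ then v x else 0) ?_ ?_
    (fun j k hjk => absurd (Subsingleton.elim j k) hjk) ?_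
    (fun j k hjk => absurd (Subsingleton.elim j k) hjk)
  · have he1 : ∀ x, (∑ a, ∑ b, conj (if a = i₀ then v x else 0) *
        Matrix.diagonal (fun i : Fin m => if i = i₀ then (w x : ℂ) else 0) a b *
        (if b = i₀ then v x else 0)).re = w x * ‖v x‖ ^ 2 := fun x => by
      rw [Finset.sum_eq_single i₀ (fun a _ ha => by simp [ha]) (by simp),
        Finset.sum_eq_single i₀ (fun b _ hb => by simp [hb]) (by simp)]
      simp only [Matrix.diagonal_apply_eq, if_pos]
      rw [mul_comm (conj (v x)) (w x : ℂ), mul_assoc, Complex.conj_mul',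
        ← Complex.ofReal_pow, ← Complex.ofReal_mul, Complex.ofReal_re]
    have he2 : ∀ x, ∑ a, ‖deriv (fun y => if a = i₀ then v y else 0) x‖ ^ 2 =
        ‖deriv v x‖ ^ 2 := fun x => by
      rw [Finset.sum_eq_single i₀ (fun a _ ha => by simp [ha]) (by simp)]
      simp
    simp only [Finset.univ_unique, Finset.sum_singleton, energyM_eq, he1, he2, htr] at h
    exact h
  · intro a b
    by_cases hab : a = b
    · subst hab
      by_cases ha : a = i₀
      · simp only [Matrix.diagonal_apply_eq, if_pos ha]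
        exact (Complex.continuous_ofReal.comp hwc).measurable
      · simp [ha]
    · simp [Matrix.diagonal_apply_ne _ hab]
  · intro _ a
    by_cases ha : a = i₀
    · simpa [ha] using hv1
    · simp only [ha, if_false]; exact contDiff_const
  · intro _ a
    by_cases ha : a = i₀
    · simpa [ha] using hv2
    · simp only [ha, if_false]; exact HasCompactSupport.zero
  · intro _
    simpa [apply_ite, ite_pow] using hv3

end Vale.Agent.P371.Thr
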