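import Vale.Agent.P371.Thr.Chain
import Vale.Agent.P371.Thr.Block
import Vale.Agent.P371.Thr.Ode

/-!
P371, threshold method T3: the first threshold of a continuous family of problems.
-/

namespace Vale.Agent.P371.Thr

open _root_.Matrix Complex MeasureTheory Set
open Vale.Agent.P371.Pencil (qf sqLen)
open scoped ComplexOrder Matrix.Norms.L2Operator

variable {n : Type} [Fintype n] [DecidableEq n]

/-- The derivative of the inverse matrix along a curve. -/
lemma hasDerivAt_inv_curve {F : ℝ → Matrix n n ℂ} {F' : Matrix n n ℂ} {x : ℝ} (h : HasDerivAt F F' x)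
    (hu : IsUnit (F x)) : HasDerivAt (fun y => (F y)⁻¹) (-((F x)⁻¹ * F' * (F x)⁻¹)) x := by
  obtain ⟨u, hu'⟩ := hu
  have e : (F x)⁻¹ = ((u⁻¹ : (Matrix n n ℂ)ˣ) : Matrix n n ℂ) := by
    rw [← hu', Matrix.nonsing_inv_eq_ringInverse, Ring.inverse_unit]
  have h1 : HasFDerivAt (fun M : Matrix n n ℂ => M⁻¹)
      (-ContinuousLinearMap.mulLeftRight ℝ (Matrix n n ℂ) ((u⁻¹ : (Matrix n n ℂ)ˣ) : Matrix n n ℂ)
        ((u⁻¹ : (Matrix n n ℂ)ˣ) : Matrix n n ℂ)) (F x) := by
    rw [← hu']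
    simpa only [Matrix.nonsing_inv_eq_ringInverse] using hasFDerivAt_ringInverse (𝕜 := ℝ) u
  refine (h1.comp_hasDerivAt x h).congr_deriv ?_
  rw [e]
  simp [ContinuousLinearMap.mulLeftRight_apply]

omit [DecidableEq n] in
lemma qf_posDef_pos {M : Matrix n n ℂ} (hM : M.PosDef) {v : n → ℂ} (hv : v ≠ 0) : 0 < qf M v :=
  (Complex.pos_iff.1 (hM.dotProduct_mulVec_pos hv)).1

/-- The trace of `Aᴴ X B`, for rectangular `A`, `B`. -/
lemma hasDerivWithinAt_traceForm {k : Type} [Fintype k] {f f' : ℝ → Matrix n k ℂ} {C : ℝ → Matrix n n ℂ}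
    {C' : Matrix n n ℂ} {s : Set ℝ} {x : ℝ} (hf : HasDerivWithinAt f (f' x) s x)
    (hC : HasDerivWithinAt C C' s x) :
    HasDerivWithinAt (fun y => ((f y)ᴴ * C y * f y).trace.re)
      (((f' x)ᴴ * C x * f x + (f x)ᴴ * C' * f x + (f x)ᴴ * C x * f' x).trace.re) s x := by
  classical
  have hentry : ∀ a b, HasDerivWithinAt (fun y => f y a b) (f' x a b) s x := fun a b =>
    (LinearMap.toContinuousLinearMap
      ({ toFun := fun M => M a b, map_add' := fun _ _ => rfl, map_smul' := fun _ _ => rfl } :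
        Matrix n k ℂ →ₗ[ℝ] ℂ)).hasFDerivAt.comp_hasDerivWithinAt x hf
  have hCe : ∀ a b, HasDerivWithinAt (fun y => C y a b) (C' a b) s x := fun a b =>
    (LinearMap.toContinuousLinearMap
      ({ toFun := fun M => M a b, map_add' := fun _ _ => rfl, map_smul' := fun _ _ => rfl } :
        Matrix n n ℂ →ₗ[ℝ] ℂ)).hasFDerivAt.comp_hasDerivWithinAt x hC
  have h : HasDerivWithinAt (fun y => ((f y)ᴴ * C y * f y).trace)
      (((f' x)ᴴ * C x * f x + (f x)ᴴ * C' * f x + (f x)ᴴ * C x * f' x).trace) s x := by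
    simp only [Matrix.trace, Matrix.diag_apply, Matrix.add_apply, Matrix.mul_apply, conjTranspose_apply,
      Finset.sum_mul, ← Finset.sum_add_distrib]
    refine HasDerivWithinAt.fun_sum fun i _ => HasDerivWithinAt.fun_sum fun b _ =>
      HasDerivWithinAt.fun_sum fun a _ => ?_
    refine (((hentry a i).star.mul (hCe a b)).mul (hentry b i)).congr_deriv ?_
    simp only [Pi.mul_apply]
    ring
  exact Complex.reCLM.hasFDerivAt.comp_hasDerivWithinAt x h

/-- Completing the square along a Riccati solution. -/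
lemma ric_identity {k : Type} [Fintype k] {L : ℝ} (hL : 0 < L) {E : Matrix n n ℂ} {V B : ℝ → Matrix n n ℂ}
    (hVc : ContinuousOn V (Icc (-L) L)) (hB : Ric E V L B) {f f' : ℝ → Matrix n k ℂ}
    (hf : ∀ x ∈ Icc (-L) L, HasDerivWithinAt f (f' x) (Icc (-L) L) x) (hf' : ContinuousOn f' (Icc (-L) L)) :
    formI E V L f f' = (∫ x in (-L)..L, ((f' x + B x * f x)ᴴ * (f' x + B x * f x)).trace.re) -
      (((f L)ᴴ * B L * f L).trace.re - ((f (-L))ᴴ * B (-L) * f (-L)).trace.re) := by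
  classical
  have hle : -L ≤ L := by linarith
  have hfc : ContinuousOn f (Icc (-L) L) := fun x hx => (hf x hx).continuousWithinAt
  have hBc : ContinuousOn B (Icc (-L) L) := fun x hx => (hB.deriv x hx).continuousWithinAt
  set g' : ℝ → ℝ := fun x => ((f' x)ᴴ * B x * f x + (f x)ᴴ * (B x * B x - E + V x) * f x +
    (f x)ᴴ * B x * f' x).trace.re
  have hg : ∀ x ∈ Icc (-L) L, HasDerivWithinAt (fun y => ((f y)ᴴ * B y * f y).trace.re) (g' x) (Icc (-L) L) x :=
    fun x hx => hasDerivWithinAt_traceForm (hf x hx) (hB.deriv x hx)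
  have hmul : ∀ {a b c : Type} [Fintype a] [Fintype b] [Fintype c] {F : ℝ → Matrix a b ℂ} {G : ℝ → Matrix b c ℂ},
      ContinuousOn F (Icc (-L) L) → ContinuousOn G (Icc (-L) L) →
      ContinuousOn (fun x => F x * G x) (Icc (-L) L) := fun hF hG =>
    (continuous_fst.matrix_mul continuous_snd).comp_continuousOn (hF.prodMk hG)
  have hstar : ∀ {a b : Type} [Fintype a] [Fintype b] {F : ℝ → Matrix a b ℂ}, ContinuousOn F (Icc (-L) L) →
      ContinuousOn (fun x => (F x)ᴴ) (Icc (-L) L) := fun hF =>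
    continuous_id.matrix_conjTranspose.comp_continuousOn hF
  have htr : ∀ {F : ℝ → Matrix k k ℂ}, ContinuousOn F (Icc (-L) L) →
      ContinuousOn (fun x => (F x).trace.re) (Icc (-L) L) := fun hF =>
    (Complex.continuous_re.comp continuous_id.matrix_trace).comp_continuousOn hF
  have hgc : ContinuousOn g' (Icc (-L) L) :=
    htr (((hmul (hmul (hstar hf') hBc) hfc).add
      (hmul (hmul (hstar hfc) (((hBc.mul hBc).sub continuousOn_const).add hVc)) hfc)).add
        (hmul (hmul (hstar hfc) hBc) hf'))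
  have hftc := intervalIntegral.integral_eq_sub_of_hasDerivAt_of_le hle
    (fun x hx => (hg x hx).continuousWithinAt)
    (fun x hx => (hg x (Ioo_subset_Icc_self hx)).hasDerivAt (Icc_mem_nhds hx.1 hx.2))
    (hgc.intervalIntegrable_of_Icc (μ := volume) hle)
  have hs : ContinuousOn (fun x => f' x + B x * f x) (Icc (-L) L) := hf'.add (hmul hBc hfc)
  rw [← hftc, ← intervalIntegral.integral_sub ((htr (hmul (hstar hs) hs)).intervalIntegrable_of_Icc hle)
    (hgc.intervalIntegrable_of_Icc hle)]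
  refine intervalIntegral.integral_congr fun x hx => ?_
  rw [uIcc_of_le hle] at hx
  simp only [g']
  rw [← Complex.sub_re, ← Complex.add_re, ← Matrix.trace_sub, ← Matrix.trace_add]
  congr 2
  simp only [conjTranspose_add, conjTranspose_mul, (hB.herm x hx).eq, Matrix.add_mul, Matrix.mul_add,
    Matrix.sub_mul, Matrix.mul_sub, ← Matrix.mul_assoc]
  abel

omit [DecidableEq n] in
lemma trace_sq_nonneg {k : Type} [Fintype k] (A : Matrix n k ℂ) : 0 ≤ (Aᴴ * A).trace.re := by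
  classical
  exact (Complex.nonneg_iff.1 (Matrix.posSemidef_conjTranspose_mul_self A).trace_nonneg).1

omit [DecidableEq n] in
lemma trace_col (M : Matrix n n ℂ) (v : n → ℂ) :
    ((Matrix.replicateCol Unit v)ᴴ * M * Matrix.replicateCol Unit v).trace.re = qf M v := by
  simp [Matrix.trace, Matrix.mul_apply, Pencil.qf, dotProduct, Matrix.mulVec, Finset.sum_mul, Finset.mul_sum,
    mul_assoc]
  rw [Finset.sum_comm]

lemma qf_le_of_domC {C F : Matrix n n ℂ} (h : Pencil.DomC C F) (v : n → ℂ) :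
    qf C v ≤ (1 + ‖F‖) / 2 * sqLen v := by
  have h1 := Pencil.qf_nonneg (h.nonneg 1) v
  rw [qf_pencil] at h1
  have h2 := (le_abs_self _).trans (Pencil.qf_le_opNorm F v)
  linarith

/-- The shooting data of a family. -/
structure Shot {X : Type} [TopologicalSpace X] (L : ℝ) (E : X → Matrix n n ℂ) (V : X → ℝ → Matrix n n ℂ)
    (Φ Φ' : X × ℝ → ℝ → Matrix n n ℂ) : Prop where
  cont : Continuous fun q : (X × ℝ) × ℝ => Φ q.1 q.2
  cont' : Continuous fun q : (X × ℝ) × ℝ => Φ' q.1 q.2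
  start : ∀ q, Φ q (-L) = 1
  start' : ∀ q, Φ' q (-L) = msqrt (E q.1)
  deriv : ∀ q t, HasDerivAt (Φ q) (Φ' q t) t
  deriv' : ∀ q t, HasDerivAt (Φ' q) ((E q.1 - q.2 • V q.1 t) * Φ q t) t

section shot

variable {X : Type} [TopologicalSpace X] {L : ℝ} {E : X → Matrix n n ℂ} {V : X → ℝ → Matrix n n ℂ}
  {Φ Φ' : X × ℝ → ℝ → Matrix n n ℂ}

/-- The mismatch at the right end. -/
noncomputable def mis (L : ℝ) (E : X → Matrix n n ℂ) (Φ Φ' : X × ℝ → ℝ → Matrix n n ℂ) (q : X × ℝ) :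
    Matrix n n ℂ :=
  msqrt (E q.1) + Φ' q L * (Φ q L)⁻¹

lemma Shot.isHermitian (h : Shot L E V Φ Φ') (hE : ∀ s, (E s).PosDef) (hV : ∀ s x, (V s x).PosSemidef)
    (q : X × ℝ) {t : ℝ} (hu : IsUnit (Φ q t)) : (-(Φ' q t * (Φ q t)⁻¹)).IsHermitian := by
  set K := fun x => E q.1 - q.2 • V q.1 x
  have hK : ∀ x, (K x)ᴴ = K x := fun x => by
    simp only [K, conjTranspose_sub, (hE q.1).1.eq, conjTranspose_smul, (hV q.1 x).1.eq, star_trivial]
  have hw : ∀ x, HasDerivAt (fun y => (Φ q y)ᴴ * Φ' q y - (Φ' q y)ᴴ * Φ q y) 0 x := fun x => by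
    have h1 := (h.deriv q x).star
    have h2 := (h.deriv' q x).star
    simp only [Matrix.star_eq_conjTranspose] at h1 h2
    refine ((h1.mul (h.deriv' q x)).sub (h2.mul (h.deriv q x))).congr_deriv ?_
    simp only [conjTranspose_mul, conjTranspose_sub, (hE q.1).1.eq, conjTranspose_smul, (hV q.1 x).1.eq,
      star_trivial, Matrix.mul_assoc]
    abel
  have hconst := is_const_of_deriv_eq_zero (fun x => (hw x).differentiableAt) (fun x => (hw x).deriv) t (-L)
  rw [h.start q, h.start' q, conjTranspose_one, one_mul, mul_one, show (msqrt (E q.1))ᴴ = msqrt (E q.1) from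
    conjTranspose_msqrt _, sub_self, sub_eq_zero] at hconst
  have hd : IsUnit (Φ q t).det := (Matrix.isUnit_iff_isUnit_det _).1 hu
  show _ = _
  rw [conjTranspose_neg, conjTranspose_mul, Matrix.conjTranspose_nonsing_inv, neg_inj]
  have h3 := congrArg (fun M => ((Φ q t)ᴴ)⁻¹ * M * (Φ q t)⁻¹) hconst
  simp only [← Matrix.mul_assoc] at h3
  rw [Matrix.nonsing_inv_mul _ (by rw [Matrix.det_conjTranspose]; exact hd.star), one_mul,
    Matrix.mul_assoc _ (Φ q t) (Φ q t)⁻¹, Matrix.mul_nonsing_inv _ hd, mul_one] at h3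
  exact h3.symm

lemma Shot.ric (h : Shot L E V Φ Φ') (hL : 0 < L) (hE : ∀ s, (E s).PosDef)
    (hV : ∀ s x, (V s x).PosSemidef) {q : X × ℝ} (hu : ∀ x ∈ Icc (-L) L, IsUnit (Φ q x)) :
    Ric (E q.1) (fun x => q.2 • V q.1 x) L (fun x => -(Φ' q x * (Φ q x)⁻¹)) := by
  refine ⟨fun x hx => h.isHermitian hE hV q (hu x hx), fun x hx => ?_, ?_⟩
  · have hd : IsUnit (Φ q x).det := (Matrix.isUnit_iff_isUnit_det _).1 (hu x hx)
    refine (((h.deriv' q x).mul (hasDerivAt_inv_curve (h.deriv q x) (hu x hx))).neg.congr_deriv ?_).hasDerivWithinAt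
    simp only [Matrix.mul_neg, Matrix.neg_mul, ← Matrix.mul_assoc]
    rw [Matrix.mul_assoc (E q.1 - q.2 • V q.1 x), Matrix.mul_nonsing_inv _ hd, mul_one]
    abel
  · simp [h.start q, h.start' q]

lemma Shot.mis_eq (q : X × ℝ) : mis L E Φ Φ' q = msqrt (E q.1) - -(Φ' q L * (Φ q L)⁻¹) :=
  (sub_neg_eq_add _ _).symm

/-- A lower bound for the shooting solution. -/
lemma Shot.lower (h : Shot L E V Φ Φ') (hL : 0 < L) (hE : ∀ s, (E s).PosDef)
    (hV : ∀ s x, (V s x).PosSemidef) {q : X × ℝ} (hq : 0 ≤ q.2) (hu : ∀ x ∈ Icc (-L) L, IsUnit (Φ q x))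
    (hΔ : (mis L E Φ Φ' q).PosSemidef) {C : ℝ} (hC : (1 + ‖E q.1‖) / 2 ≤ C) :
    ∀ x ∈ Icc (-L) L, ∀ v, Real.exp (-(4 * C * L)) * sqLen v ≤ sqLen (Φ q x *ᵥ v) := by
  have hR := h.ric hL hE hV hu
  have hC0 : 0 ≤ C := le_trans (by positivity) hC
  have hd := ric_domC hL (hE q.1) (fun x _ => by
    rw [← Complex.coe_smul]; exact (hV q.1 x).smul (Complex.zero_le_real.2 hq)) hR
    (by rwa [← Shot.mis_eq])
  intro x hx v
  set φ : ℝ → ℝ := fun y => Real.exp (2 * C * y) * sqLen (Φ q y *ᵥ v)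
  have hs : ∀ y ∈ Icc (-L) L, HasDerivWithinAt (fun y => sqLen (Φ q y *ᵥ v))
      (2 * -qf (-(Φ' q y * (Φ q y)⁻¹)) (Φ q y *ᵥ v)) (Icc (-L) L) y := fun y hy => by
    have hv : HasDerivAt (fun y => Φ q y *ᵥ v) (Φ' q y *ᵥ v) y :=
      (LinearMap.toContinuousLinearMap
        ({ toFun := fun M => M *ᵥ v, map_add' := fun A B => add_mulVec A B v,
           map_smul' := fun r A => smul_mulVec r A v } : Matrix n n ℂ →ₗ[ℝ] (n → ℂ))).hasFDerivAt.comp_hasDerivAt y
          (h.deriv q y)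
    have h2 : HasDerivAt (fun y => ∑ i, (star (Φ q y *ᵥ v) i * (Φ q y *ᵥ v) i).re)
        (∑ i, (star ((Φ' q y *ᵥ v) i) * (Φ q y *ᵥ v) i + star ((Φ q y *ᵥ v) i) * (Φ' q y *ᵥ v) i).re) y := by
      refine HasDerivAt.fun_sum fun i _ => ?_
      exact Complex.reCLM.hasFDerivAt.comp_hasDerivAt y
        ((hasDerivAt_pi.1 hv i).star.mul (hasDerivAt_pi.1 hv i))
    have e : -(Φ' q y * (Φ q y)⁻¹) *ᵥ (Φ q y *ᵥ v) = -(Φ' q y *ᵥ v) := by
      rw [neg_mulVec, mulVec_mulVec, Matrix.mul_assoc,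
        Matrix.nonsing_inv_mul _ ((Matrix.isUnit_iff_isUnit_det _).1 (hu y hy)), mul_one]
    have e2 : (fun y => ∑ i, (star (Φ q y *ᵥ v) i * (Φ q y *ᵥ v) i).re) = fun y => sqLen (Φ q y *ᵥ v) := by
      funext y
      simp [Pencil.sqLen, dotProduct]
    rw [e2] at h2
    refine (h2.congr_deriv ?_).hasDerivWithinAt
    rw [Pencil.qf, e, dotProduct_neg, Complex.neg_re, neg_neg, dotProduct, Complex.re_sum, Finset.mul_sum]
    refine Finset.sum_congr rfl fun i _ => ?_
    simp only [Pi.star_apply, Complex.star_def, Complex.add_re, Complex.mul_re, Complex.conj_re, Complex.conj_im]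
    ring
  have hφ : ∀ y ∈ Icc (-L) L, HasDerivWithinAt φ
      (Real.exp (2 * C * y) * (2 * (C * sqLen (Φ q y *ᵥ v) - qf (-(Φ' q y * (Φ q y)⁻¹)) (Φ q y *ᵥ v))))
      (Icc (-L) L) y := fun y hy => by
    have h1 : HasDerivAt (fun y => Real.exp (2 * C * y)) (Real.exp (2 * C * y) * (2 * C)) y := by
      simpa using ((hasDerivAt_id y).const_mul (2 * C)).exp
    exact (h1.hasDerivWithinAt.mul (hs y hy)).congr_deriv (by ring)
  have hint : interior (Icc (-L) L) ⊆ Icc (-L) L := interior_subset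
  have hmono : MonotoneOn φ (Icc (-L) L) :=
    monotoneOn_of_hasDerivWithinAt_nonneg (convex_Icc _ _) (fun y hy => (hφ y hy).continuousWithinAt)
      (fun y hy => (hφ y (hint hy)).mono hint) fun y hy => by
        refine mul_nonneg (Real.exp_pos _).le (mul_nonneg two_pos.le (sub_nonneg.2 ?_))
        exact (qf_le_of_domC (hd y (hint hy)) _).trans
          (mul_le_mul_of_nonneg_right hC (Pencil.sqLen_nonneg _))
  have h0 := hmono (left_mem_Icc.2 (by linarith)) hx hx.1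
  simp only [φ, h.start q, one_mulVec] at h0
  refine le_of_mul_le_mul_left ?_ (Real.exp_pos (2 * C * x))
  refine le_trans ?_ h0
  rw [← mul_assoc, ← Real.exp_add]
  exact mul_le_mul_of_nonneg_right (Real.exp_le_exp.2 (by nlinarith [hx.2])) (Pencil.sqLen_nonneg v)

lemma Shot.base (h : Shot L E V Φ Φ') (hL : 0 < L) (hE : ∀ s, (E s).PosDef)
    (hV : ∀ s x, (V s x).PosSemidef) (s : X) :
    (∀ x ∈ Icc (-L) L, IsUnit (Φ (s, 0) x)) ∧ (mis L E Φ Φ' (s, 0)).PosDef := by
  classical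
  have hS : (msqrt (E s)).PosDef := by
    obtain ⟨U, r, hU, hr, hS, -⟩ := spec_msqrt (hE s)
    rw [hS]
    refine (Matrix.posDef_diagonal_iff.2 fun i => Complex.zero_lt_real.2 (hr i)).mul_mul_conjTranspose_same ?_
    exact fun v w e => by simpa [Matrix.vecMul_vecMul, hU] using congrArg (fun x => x ᵥ* Uᴴ) e
  have key : ∀ v, v ≠ 0 → ∀ x ∈ Icc (-L) L, 0 < (star (Φ (s, 0) x *ᵥ v) ⬝ᵥ (Φ' (s, 0) x *ᵥ v)).re := by
    intro v hv x hx
    set g : ℝ → ℝ := fun y => qf ((Φ (s, 0) y)ᴴ * Φ' (s, 0) y) v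
    have eg : ∀ y, g y = (star (Φ (s, 0) y *ᵥ v) ⬝ᵥ (Φ' (s, 0) y *ᵥ v)).re := fun y => by
      simp only [g, Pencil.qf, ← mulVec_mulVec, star_mulVec, ← dotProduct_mulVec]
    set Q : Matrix n n ℂ →L[ℝ] ℝ := LinearMap.toContinuousLinearMap
      { toFun := fun X => qf X v, map_add' := fun X Y => Pencil.qf_add X Y v,
        map_smul' := fun c X => Pencil.qf_smul c X v }
    have hg : ∀ y, HasDerivAt g
        (qf ((Φ' (s, 0) y)ᴴ * Φ' (s, 0) y + (Φ (s, 0) y)ᴴ * E s * Φ (s, 0) y) v) y := fun y => by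
      have h1 := (h.deriv (s, 0) y).star
      simp only [Matrix.star_eq_conjTranspose] at h1
      refine Q.hasFDerivAt.comp_hasDerivAt y ((h1.mul (h.deriv' (s, 0) y)).congr_deriv ?_)
      simp [Matrix.mul_assoc]
    have hm : Monotone g := monotone_of_deriv_nonneg (fun y => (hg y).differentiableAt) fun y => by
      rw [(hg y).deriv]
      exact Pencil.qf_nonneg ((Matrix.posSemidef_conjTranspose_mul_self _).add
        ((hE s).posSemidef.conjTranspose_mul_mul_same _)) v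
    have h0 : 0 < g (-L) := by
      simp only [g, h.start, h.start', conjTranspose_one, one_mul]
      exact qf_posDef_pos hS hv
    rw [← eg]
    exact h0.trans_le (hm hx.1)
  have hu : ∀ x ∈ Icc (-L) L, IsUnit (Φ (s, 0) x) := fun x hx => by
    rw [← Matrix.mulVec_injective_iff_isUnit]
    intro a b hab
    by_contra hne
    have := key (a - b) (sub_ne_zero.2 hne) x hx
    simp [mulVec_sub, sub_eq_zero.2 hab] at this
  refine ⟨hu, Matrix.PosDef.of_dotProduct_mulVec_pos ?_ fun w hw => ?_⟩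
  · exact hS.1.add (neg_neg (Φ' (s, 0) L * (Φ (s, 0) L)⁻¹) ▸
      (h.isHermitian hE hV (s, 0) (hu L (right_mem_Icc.2 (by linarith)))).neg)
  have hherm : (mis L E Φ Φ' (s, 0)).IsHermitian :=
    hS.1.add (neg_neg (Φ' (s, 0) L * (Φ (s, 0) L)⁻¹) ▸
      (h.isHermitian hE hV (s, 0) (hu L (right_mem_Icc.2 (by linarith)))).neg)
  have hd := (Matrix.isUnit_iff_isUnit_det _).1 (hu L (right_mem_Icc.2 (by linarith)))
  set v := (Φ (s, 0) L)⁻¹ *ᵥ w
  have hwv : Φ (s, 0) L *ᵥ v = w := by rw [mulVec_mulVec, Matrix.mul_nonsing_inv _ hd, one_mulVec]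
  have hv : v ≠ 0 := fun e => hw (by rw [← hwv, e, mulVec_zero])
  refine Complex.pos_iff.2 ⟨?_, (hherm.im_star_dotProduct_mulVec_self w).symm⟩
  have k1 := key v hv L (right_mem_Icc.2 (by linarith))
  rw [hwv] at k1
  simp only [mis, add_mulVec, dotProduct_add, Complex.add_re, ← mulVec_mulVec]
  exact add_pos_of_nonneg_of_pos (Pencil.qf_nonneg hS.posSemidef w) k1

lemma Shot.form_nonneg (h : Shot L E V Φ Φ') (hL : 0 < L) (hE : ∀ s, (E s).PosDef)
    (hV : ∀ s x, (V s x).PosSemidef) (hVc : ∀ s, Continuous (V s)) {q : X × ℝ}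
    (hu : ∀ x ∈ Icc (-L) L, IsUnit (Φ q x)) {k : Type} [Fintype k] {f f' : ℝ → Matrix n k ℂ}
    (hf : ∀ x ∈ Icc (-L) L, HasDerivWithinAt f (f' x) (Icc (-L) L) x) (hf' : ContinuousOn f' (Icc (-L) L)) :
    formI (E q.1) (fun x => q.2 • V q.1 x) L f f' + ((f (-L))ᴴ * msqrt (E q.1) * f (-L)).trace.re +
        ((f L)ᴴ * msqrt (E q.1) * f L).trace.re =
      (∫ x in (-L)..L, ((f' x + -(Φ' q x * (Φ q x)⁻¹) * f x)ᴴ * (f' x + -(Φ' q x * (Φ q x)⁻¹) * f x)).trace.re) +
        ((f L)ᴴ * mis L E Φ Φ' q * f L).trace.re := by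
  have hR := h.ric hL hE hV hu
  have hc : ContinuousOn (fun x => q.2 • V q.1 x) (Icc (-L) L) := ((hVc q.1).const_smul q.2).continuousOn
  rw [ric_identity hL hc hR hf hf', hR.left]
  simp only [mis, Matrix.mul_add, Matrix.add_mul, Matrix.trace_add, Complex.add_re, Matrix.mul_neg, Matrix.neg_mul,
    Matrix.trace_neg, Complex.neg_re]
  ring

/-- Above a singular threshold nothing is semidefinite. -/
lemma Shot.le_of_singular (h : Shot L E V Φ Φ') (hL : 0 < L) (hE : ∀ s, (E s).PosDef)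
    (hV : ∀ s x, (V s x).PosSemidef) (hVc : ∀ s, Continuous (V s)) {s : X} {a b : ℝ} (ha : 0 ≤ a)
    (hua : ∀ x ∈ Icc (-L) L, IsUnit (Φ (s, a) x)) (hps : (mis L E Φ Φ' (s, a)).PosSemidef)
    (hnd : ¬ (mis L E Φ Φ' (s, a)).PosDef)
    (hub : ∀ x ∈ Icc (-L) L, IsUnit (Φ (s, b) x)) (hpb : (mis L E Φ Φ' (s, b)).PosSemidef) : b ≤ a := by
  classical
  by_contra hab
  rw [not_le] at hab
  obtain ⟨w, hw, hw0⟩ : ∃ w : n → ℂ, w ≠ 0 ∧ mis L E Φ Φ' (s, a) *ᵥ w = 0 := by
    by_contra hne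
    push Not at hne
    refine hnd ((hps.posDef_iff_isUnit).2 ?_)
    rw [← Matrix.mulVec_injective_iff_isUnit]
    intro x y hxy
    by_contra hxy'
    exact hne _ (sub_ne_zero.2 hxy') (by rw [mulVec_sub, hxy, sub_self])
  have hmem : L ∈ Icc (-L) L := right_mem_Icc.2 (by linarith)
  have hd := (Matrix.isUnit_iff_isUnit_det _).1 (hua L hmem)
  set W : Matrix n Unit ℂ := Matrix.replicateCol Unit ((Φ (s, a) L)⁻¹ *ᵥ w)
  set f : ℝ → Matrix n Unit ℂ := fun x => Φ (s, a) x * W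
  set f' : ℝ → Matrix n Unit ℂ := fun x => Φ' (s, a) x * W
  have hΛ : ∀ (F : ℝ → Matrix n n ℂ) (D : Matrix n n ℂ) (x : ℝ), HasDerivAt F D x →
      HasDerivAt (fun y => F y * W) (D * W) x := fun F D x hF =>
    (LinearMap.toContinuousLinearMap
      ({ toFun := fun M => M * W, map_add' := fun A B => Matrix.add_mul A B W,
         map_smul' := fun r A => Matrix.smul_mul r A W } : Matrix n n ℂ →ₗ[ℝ] Matrix n Unit ℂ)).hasFDerivAt.comp_hasDerivAt x hF
  have hf : ∀ x ∈ Icc (-L) L, HasDerivWithinAt f (f' x) (Icc (-L) L) x := fun x _ =>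
    (hΛ _ _ x (h.deriv (s, a) x)).hasDerivWithinAt
  have hf'c : Continuous f' := continuous_iff_continuousAt.2 fun x => (hΛ _ _ x (h.deriv' (s, a) x)).continuousAt
  have hfc : Continuous f := continuous_iff_continuousAt.2 fun x => (hΛ _ _ x (h.deriv (s, a) x)).continuousAt
  have hfL : f L = Matrix.replicateCol Unit w := by
    simp only [f, W]
    rw [← Matrix.replicateCol_mulVec, mulVec_mulVec, Matrix.mul_nonsing_inv _ hd, one_mulVec]
  have ea := h.form_nonneg hL hE hV hVc (q := (s, a)) hua hf hf'c.continuousOn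
  have eb := h.form_nonneg hL hE hV hVc (q := (s, b)) hub hf hf'c.continuousOn
  have h1 : (∫ x in (-L)..L, ((f' x + -(Φ' (s, a) x * (Φ (s, a) x)⁻¹) * f x)ᴴ *
      (f' x + -(Φ' (s, a) x * (Φ (s, a) x)⁻¹) * f x)).trace.re) = 0 := by
    refine intervalIntegral.integral_zero_ae ?_ |>.trans rfl
    refine Filter.Eventually.of_forall fun x hx => ?_
    rw [uIoc_of_le (by linarith)] at hx
    have e : -(Φ' (s, a) x * (Φ (s, a) x)⁻¹) * f x = -f' x := by
      simp only [f, f', Matrix.neg_mul, ← Matrix.mul_assoc]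
      rw [Matrix.mul_assoc (Φ' (s, a) x),
        Matrix.nonsing_inv_mul _ ((Matrix.isUnit_iff_isUnit_det _).1 (hua x (Ioc_subset_Icc_self hx))), mul_one]
    simp [e]
  have h2 : ((f L)ᴴ * mis L E Φ Φ' (s, a) * f L).trace.re = 0 := by
    rw [hfL, trace_col, Pencil.qf, hw0, dotProduct_zero, Complex.zero_re]
  rw [h1, h2] at ea
  have h3 : 0 ≤ ((f L)ᴴ * mis L E Φ Φ' (s, b) * f L).trace.re := by
    rw [hfL, trace_col]; exact Pencil.qf_nonneg hpb w
  have h4 : 0 ≤ ∫ x in (-L)..L, ((f' x + -(Φ' (s, b) x * (Φ (s, b) x)⁻¹) * f x)ᴴ *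
      (f' x + -(Φ' (s, b) x * (Φ (s, b) x)⁻¹) * f x)).trace.re :=
    intervalIntegral.integral_nonneg (by linarith) fun x _ => trace_sq_nonneg _
  have hsplit : ∀ c : ℝ, formI (E s) (fun x => c • V s x) L f f' =
      (∫ x in (-L)..L, ((f' x)ᴴ * f' x).trace.re + ((f x)ᴴ * E s * f x).trace.re) -
        c * ∫ x in (-L)..L, ((f x)ᴴ * V s x * f x).trace.re := by
    intro c
    have hfs : Continuous fun x => (f x)ᴴ := hfc.matrix_conjTranspose
    have c1 : Continuous fun x => ((f' x)ᴴ * f' x).trace.re + ((f x)ᴴ * E s * f x).trace.re :=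
      (Complex.continuous_re.comp ((hf'c.matrix_conjTranspose.matrix_mul hf'c).matrix_trace)).add
        (Complex.continuous_re.comp (((hfs.matrix_mul continuous_const).matrix_mul hfc).matrix_trace))
    have c2 : Continuous fun x => ((f x)ᴴ * V s x * f x).trace.re :=
      Complex.continuous_re.comp (((hfs.matrix_mul (hVc s)).matrix_mul hfc).matrix_trace)
    rw [← intervalIntegral.integral_const_mul, ← intervalIntegral.integral_sub (c1.intervalIntegrable _ _)
      ((show Continuous fun x => c * ((f x)ᴴ * V s x * f x).trace.re from continuous_const.mul c2).intervalIntegrable _ _)]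
    refine intervalIntegral.integral_congr fun x _ => ?_
    simp only [Matrix.mul_sub, Matrix.sub_mul, Matrix.trace_sub, Complex.sub_re, Matrix.mul_smul, Matrix.smul_mul,
      Matrix.trace_smul, Complex.real_smul, Complex.re_ofReal_mul]
    ring
  rw [hsplit] at ea eb
  have hvv : 0 ≤ ∫ x in (-L)..L, ((f x)ᴴ * V s x * f x).trace.re :=
    intervalIntegral.integral_nonneg (by linarith) fun x _ =>
      (Complex.nonneg_iff.1 ((hV s x).conjTranspose_mul_mul_same (f x)).trace_nonneg).1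
  have hzero : (∫ x in (-L)..L, ((f x)ᴴ * V s x * f x).trace.re) = 0 := by
    dsimp only at ea eb
    nlinarith
  have hp : 0 ≤ ∫ x in (-L)..L, ((f' x)ᴴ * f' x).trace.re + ((f x)ᴴ * E s * f x).trace.re :=
    intervalIntegral.integral_nonneg (by linarith) fun x _ => add_nonneg (trace_sq_nonneg _)
      (Complex.nonneg_iff.1 ((hE s).posSemidef.conjTranspose_mul_mul_same (f x)).trace_nonneg).1
  have hS : (msqrt (E s)).PosDef := by
    obtain ⟨U, r, hU, hr, hS, -⟩ := spec_msqrt (hE s)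
    rw [hS]
    refine (Matrix.posDef_diagonal_iff.2 fun i => Complex.zero_lt_real.2 (hr i)).mul_mul_conjTranspose_same ?_
    exact fun v w e => by simpa [Matrix.vecMul_vecMul, hU] using congrArg (fun x => x ᵥ* Uᴴ) e
  dsimp only at ea
  rw [hzero, hfL, trace_col] at ea
  have hL0 : 0 ≤ ((f (-L))ᴴ * msqrt (E s) * f (-L)).trace.re :=
    (Complex.nonneg_iff.1 (hS.posSemidef.conjTranspose_mul_mul_same _).trace_nonneg).1
  have := qf_posDef_pos hS hw
  linarith

end shot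

/-- The threshold and its mismatch depend continuously on the parameter. -/
theorem exists_threshold {k : Type} [Fintype k] {X : Type} [PseudoMetricSpace X] [CompactSpace X] [Nonempty n] {L T : ℝ}
    (hL : 0 < L) (hT : 0 ≤ T) {E : X → Matrix n n ℂ} {V : X → ℝ → Matrix n n ℂ} (hEc : Continuous E)
    (hE : ∀ s, (E s).PosDef) (hVc : Continuous fun q : X × ℝ => V q.1 q.2)
    (hV : ∀ s x, (V s x).PosSemidef)
    (hneg : ∀ s, ∃ f f' : ℝ → Matrix n k ℂ, (∀ x, HasDerivAt f (f' x) x) ∧ Continuous f' ∧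
      f (-L) = 0 ∧ f L = 0 ∧ formI (E s) (fun x => T • V s x) L f f' < 0) :
    ∃ (θ : X → ℝ) (Δ : X → Matrix n n ℂ) (B : X → ℝ → Matrix n n ℂ), Continuous θ ∧ Continuous Δ ∧
      ∀ s, θ s ∈ Icc 0 T ∧ (Δ s).PosSemidef ∧ ¬ (Δ s).PosDef ∧
        Ric (E s) (fun x => θ s • V s x) L (B s) ∧ B s L = msqrt (E s) - Δ s := by
  classical
  have hSc : Continuous fun s => msqrt (E s) :=
    continuousOn_univ.1 (ContinuousOn.cfc_of_mem_nhdsSet (s := univ) Real.sqrt Filter.univ_mem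
      hEc.continuousOn (fun q _ => (hE q).1) Real.continuous_sqrt.continuousOn)
  have hVs : ∀ s, Continuous (V s) := fun s => hVc.comp (Continuous.prodMk_right s)
  obtain ⟨Φ, Φ', c1, c2, c3, c4, c5, c6⟩ := exists_shoot (X := X × ℝ)
    (K := fun p x => E p.1 - p.2 • V p.1 x) (by
      have h1 : Continuous fun q : (X × ℝ) × ℝ => V q.1.1 q.2 :=
        hVc.comp ((continuous_fst.comp continuous_fst).prodMk continuous_snd)
      exact (hEc.comp (continuous_fst.comp continuous_fst)).sub ((continuous_snd.comp continuous_fst).smul h1))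
    (-L) (C0 := fun _ => 1) (C1 := fun p => msqrt (E p.1)) continuous_const (hSc.comp continuous_fst)
  have h : Shot L E V Φ Φ' := ⟨c1, c2, c3, c4, c5, c6⟩
  set I : Set (X × ℝ) := {q | ∀ x ∈ Icc (-L) L, IsUnit (Φ q x)}
  set D : X × ℝ → Matrix n n ℂ := mis L E Φ Φ'
  have hL' : L ∈ Icc (-L) L := right_mem_Icc.2 (by linarith)
  have hherm : ∀ q ∈ I, (D q).IsHermitian := fun q hq => by
    have := (h.ric hL hE hV hq).herm L hL'
    simp only [D, Shot.mis_eq]
    exact (isHermitian_cfc _ _ : (msqrt (E q.1)).IsHermitian).sub this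
  have hIopen : IsOpen I := isOpen_iff_mem_nhds.2 fun q hq => by
    have hdet : Continuous fun r : (X × ℝ) × ℝ => (Φ r.1 r.2).det := h.cont.matrix_det
    have : ∀ᶠ q' in nhds q, ∀ x ∈ Icc (-L) L, (Φ q' x).det ≠ 0 :=
      isCompact_Icc.eventually_forall_of_forall_eventually fun x hx =>
        (hdet.tendsto (q, x)).eventually_ne ((Matrix.isUnit_iff_isUnit_det _).1 (hq x hx)).ne_zero
    filter_upwards [this] with q' hq' x hx using (Matrix.isUnit_iff_isUnit_det _).2 (isUnit_iff_ne_zero.2 (hq' x hx))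
  have hDc : ∀ q ∈ I, ContinuousAt D q := fun q hq => by
    have hΦL : Continuous fun q => Φ q L := h.cont.comp (Continuous.prodMk_left L)
    have hΦ'L : Continuous fun q => Φ' q L := h.cont'.comp (Continuous.prodMk_left L)
    obtain ⟨u, hu⟩ := hq L hL'
    have hinv : ContinuousAt (fun M : Matrix n n ℂ => M⁻¹) (Φ q L) := by
      simp only [Matrix.nonsing_inv_eq_ringInverse, ← hu]
      exact (hasFDerivAt_ringInverse (𝕜 := ℝ) u).continuousAt
    exact (hSc.comp continuous_fst).continuousAt.add (hΦ'L.continuousAt.mul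
      (ContinuousAt.comp (f := fun q => Φ q L) (x := q) hinv hΦL.continuousAt))
  set P : Set (X × ℝ) := {q | q ∈ I ∧ (D q).PosDef}
  have hPopen : IsOpen P := isOpen_iff_mem_nhds.2 fun q hq => by
    filter_upwards [hIopen.mem_nhds hq.1, (hDc q hq.1).eventually (Pencil.eventually_posDef hq.2)] with q' h1 h2
    exact ⟨h1, h2 (hherm q' h1)⟩
  set S : Set (X × ℝ) := {q | q.2 ∈ Icc 0 T ∧ q ∈ I ∧ (D q).PosSemidef}
  obtain ⟨C, hC⟩ := (isCompact_univ (X := X)).exists_bound_of_continuousOn hEc.continuousOn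
  set A : Set (X × ℝ) := {q | q.2 ∈ Icc 0 T ∧ ∀ x ∈ Icc (-L) L, ∀ v,
    Real.exp (-(4 * ((1 + C) / 2) * L)) * sqLen v ≤ sqLen (Φ q x *ᵥ v)}
  have hA : IsClosed A := by
    have e : A = (Prod.snd ⁻¹' Icc 0 T) ∩ ⋂ x ∈ Icc (-L) L, ⋂ v : n → ℂ,
        {q | Real.exp (-(4 * ((1 + C) / 2) * L)) * sqLen v ≤ sqLen (Φ q x *ᵥ v)} := by
      ext q; simp [A]
    rw [e]
    refine (isClosed_Icc.preimage continuous_snd).inter (isClosed_biInter fun x _ => isClosed_iInter fun v =>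
      isClosed_le continuous_const ?_)
    have hΦx : Continuous fun q => Φ q x *ᵥ v :=
      (h.cont.comp (Continuous.prodMk_left x)).matrix_mulVec continuous_const
    exact Complex.continuous_re.comp (hΦx.star.dotProduct hΦx)
  have hAI : A ⊆ I := fun q hq x hx => by
    rw [← Matrix.mulVec_injective_iff_isUnit]
    intro a b hab
    have h1 := hq.2 x hx (a - b)
    rw [mulVec_sub, hab, sub_self] at h1
    have h2 : sqLen (a - b) = 0 := by
      have h3 : sqLen (0 : n → ℂ) = 0 := by simp [Pencil.sqLen]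
      rw [h3] at h1
      exact le_antisymm (le_of_mul_le_mul_left (by simpa using h1) (Real.exp_pos _)) (Pencil.sqLen_nonneg _)
    refine sub_eq_zero.1 (dotProduct_star_self_eq_zero.1 (Complex.ext h2 ?_))
    exact (Complex.nonneg_iff.1 (dotProduct_star_self_nonneg (a - b))).2.symm
  have hSA : S ⊆ A := fun q hq =>
    ⟨hq.1, h.lower hL hE hV hq.1.1 hq.2.1 hq.2.2 (by
      have := hC q.1 (mem_univ _); linarith)⟩
  have hSclosed : IsClosed S := by
    refine isClosed_of_closure_subset fun q hq => ?_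
    have hqA : q ∈ A := hA.closure_subset_iff.2 hSA hq
    refine ⟨hqA.1, hAI hqA, posSemidef_of_qf (hherm q (hAI hqA)) fun v => ?_⟩
    have hc : ContinuousAt (fun r => qf (D r) v) q :=
      (Pencil.continuous_qf v).continuousAt.comp (hDc q (hAI hqA))
    have hm : (fun r => qf (D r) v) q ∈ closure (Ici (0 : ℝ)) :=
      hc.continuousWithinAt.mem_closure (s := S) hq fun r hr => Pencil.qf_nonneg hr.2.2 v
    rwa [closure_Ici] at hm
  set N : X → Set ℝ := fun s => {t | t ∈ Icc 0 T ∧ (s, t) ∉ P}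
  have hTN : ∀ s, T ∈ N s := fun s => ⟨⟨hT, le_rfl⟩, fun hP => by
    obtain ⟨f, f', hfd, hf'c, hf0, hf1, hneg⟩ := hneg s
    have e := h.form_nonneg hL hE hV hVs (q := (s, T)) hP.1 (fun x _ => (hfd x).hasDerivWithinAt) hf'c.continuousOn
    simp only [hf0, hf1, Matrix.mul_zero, Matrix.trace_zero, Complex.zero_re, add_zero] at e
    have h4 : 0 ≤ ∫ x in (-L)..L, ((f' x + -(Φ' (s, T) x * (Φ (s, T) x)⁻¹) * f x)ᴴ *
        (f' x + -(Φ' (s, T) x * (Φ (s, T) x)⁻¹) * f x)).trace.re :=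
      intervalIntegral.integral_nonneg (by linarith) fun x _ => trace_sq_nonneg _
    linarith⟩
  have hNc : ∀ s, IsClosed (N s) := fun s =>
    isClosed_Icc.inter ((hPopen.preimage (Continuous.prodMk_right s)).isClosed_compl)
  set θ : X → ℝ := fun s => sInf (N s)
  have hNb : ∀ s, BddBelow (N s) := fun s => ⟨0, fun t ht => ht.1.1⟩
  have hθN : ∀ s, θ s ∈ N s := fun s => (hNc s).csInf_mem ⟨T, hTN s⟩ (hNb s)
  have hlt : ∀ s, ∀ t ∈ Ico 0 (θ s), (s, t) ∈ P := fun s t ht => by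
    by_contra hP
    exact (not_le.2 ht.2) (csInf_le (hNb s) ⟨⟨ht.1, ht.2.le.trans (hθN s).1.2⟩, hP⟩)
  have hθ0 : ∀ s, 0 < θ s := fun s => (hθN s).1.1.lt_of_ne fun e =>
    (hθN s).2 (e ▸ h.base hL hE hV s)
  have hθS : ∀ s, (s, θ s) ∈ S := fun s => by
    have hcl : IsClosed ((fun t : ℝ => ((s, t) : X × ℝ)) ⁻¹' S) := hSclosed.preimage (Continuous.prodMk_right s)
    have hsub : Ico 0 (θ s) ⊆ (fun t : ℝ => ((s, t) : X × ℝ)) ⁻¹' S := fun t ht =>
      ⟨⟨ht.1, ht.2.le.trans (hθN s).1.2⟩, (hlt s t ht).1, (hlt s t ht).2.posSemidef⟩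
    have := hcl.closure_subset_iff.2 hsub
    rw [closure_Ico (hθ0 s).ne] at this
    exact this (right_mem_Icc.2 (hθ0 s).le)
  have huniq : ∀ s t, (s, t) ∈ S → (s, t) ∉ P → t = θ s := fun s t hS hP => by
    refine le_antisymm ?_ (csInf_le (hNb s) ⟨hS.1, hP⟩)
    exact h.le_of_singular hL hE hV hVs (hθN s).1.1 (hθS s).2.1 (hθS s).2.2
      (fun hd => (hθN s).2 ⟨(hθS s).2.1, hd⟩) hS.2.1 hS.2.2
  have hθc : Continuous θ := continuous_iff_continuousAt.2 fun s₀ => by
    refine isCompact_Icc.tendsto_nhds_of_unique_mapClusterPt (Filter.Eventually.of_forall fun s => (hθN s).1)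
      fun y _ hy => ?_
    have hG : IsClosed (S \ P) := hSclosed.sdiff hPopen
    have hmem : (s₀, y) ∈ closure (S \ P) := by
      rw [mem_closure_iff_nhds]
      intro U hU
      rw [mem_nhds_prod_iff] at hU
      obtain ⟨U₁, h₁, U₂, h₂, hsub⟩ := hU
      obtain ⟨s, hs2, hs1⟩ := ((mapClusterPt_iff_frequently.1 hy U₂ h₂).and_eventually h₁).exists
      exact ⟨(s, θ s), hsub ⟨hs1, hs2⟩, hθS s, (hθN s).2⟩
    rw [hG.closure_eq] at hmem
    exact huniq s₀ y hmem.1 hmem.2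
  refine ⟨θ, fun s => D (s, θ s), fun s x => -(Φ' (s, θ s) x * (Φ (s, θ s) x)⁻¹), hθc,
    continuous_iff_continuousAt.2 fun s => ContinuousAt.comp (g := D) (f := fun r => (r, θ r)) (hDc _ (hθS s).2.1)
      (continuous_id.prodMk hθc).continuousAt, fun s => ⟨(hθN s).1, (hθS s).2.2,
      fun hd => (hθN s).2 ⟨(hθS s).2.1, hd⟩, h.ric hL hE hV (hθS s).2.1, ?_⟩⟩
  simp only [D, Shot.mis_eq, sub_sub_cancel]

end Vale.Agent.P371.Thr
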